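import Vale.Agent.P305D.Prep

/-!
# The dynamic structure: the new level satisfies the invariants
-/

namespace Vale.Agent.P305D

open Vale.Agent.P305E Vale.Agent.P305S Finset

/-- The result of the sampler. -/
structure CsOK (b : Bnd) (H : List HE) (cs₀ : List (Arr ℕ)) : Prop where
  len : cs₀.length ≤ b.len
  her : Her (hier cs₀)
  into : ∀ c ∈ hier cs₀, ∀ v, c v = v ∨ c v ∈ ends (H.map HE.edge)

/-- The new root. -/
def newRoot (l : Lev) (cs₀ : List (Arr ℕ)) : ℕ := labAll (hier cs₀) l.root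

/-- The hierarchy, with a last map to the root. -/
def newCs (l : Lev) (cs₀ : List (Arr ℕ)) : List (ℕ → ℕ) := hier cs₀ ++ [fun _ => newRoot l cs₀]

/-- How often the edge `h` is put on the list of `a`. -/
def cnt (cs : List (ℕ → ℕ)) (a : ℕ) (h : HE) : ℕ := (walk cs h.1 h.2.1).count a

open Classical in
/-- The result of `finish`. -/
structure FinOK (I : Ins) (b : Bnd) (st : St) (k : ℕ) (l : Lev) (A : List ℕ) (H : List HE)
    (cs₀ : List (Arr ℕ)) (l' : Lev) (sg : Arr ℤ) : Prop where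
  root : l'.root = newRoot l cs₀
  par : ∀ a, l'.par.get a = if a ∈ A then firstMove (newCs l cs₀) a else l.par.get a
  itA : ∀ a ∈ A, IGood ((k + 1) * b.bw) (l'.it.get a) ∧
    l'.cap a = (H.map fun h => cnt (newCs l cs₀) a h * h.2.2.1).sum ∧
    ∀ e, mass e (l'.it.get a).2 = (H.map fun h => cnt (newCs l cs₀) a h * mass e h.2.2.2).sum
  itN : ∀ a, a ∉ A → l'.it.get a = l.it.get a
  G : ∀ a, l'.G.get a = (if a ∈ A then 0 else l.G.get a) + (A.map fun v =>
    (if Anc l'.par.get a v then l.G.get v + st.g.get v - l.gs.get v else 0) +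
      if Anc l'.par.get a (l.par.get v) then -l.G.get v else 0).sum
  gs : l'.gs = st.g
  good : ∀ a, l'.good.get a = if a ∈ A then
    (if l'.cap a < I.K2 * (l'.G.get a).natAbs then some (0, a) else none) else l.good.get a
  U : l'.U = []
  sg : ∀ a, sg.get a = if a ∈ A then (if l'.par.get a = a then st.y a
    else st.y a - st.y (l'.par.get a)) else st.sg.get a

variable {I : Ins} {b : Bnd} {B k : ℕ} {st : St} {l l' : Lev} {A U : List ℕ} {H : List HE}
  {cs₀ : List (Arr ℕ)} {sg : Arr ℤ}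

theorem newCs_length (hc : CsOK b H cs₀) : (newCs l cs₀).length ≤ b.len + 1 := by
  simpa [newCs, hier] using hc.len

theorem newCs_her (hc : CsOK b H cs₀) : Her (newCs l cs₀) := hc.her.top _

theorem newCs_lab (l : Lev) (cs₀ : List (Arr ℕ)) (v : ℕ) :
    labAll (newCs l cs₀) v = newRoot l cs₀ := by rw [newCs, labAll_append]; rfl

theorem labAll_mem {P : ℕ → Prop} {cs : List (ℕ → ℕ)} (hP : ∀ c ∈ cs, ∀ v, P v → P (c v))
    {a : ℕ} (ha : P a) : P (labAll cs a) := by
  induction cs generalizing a with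
  | nil => exact ha
  | cons c cs ih => exact ih (fun c' hc => hP c' (by simp [hc])) (hP c (by simp) a ha)

theorem cs_into (hl : LevInv I b st k l) (hp : PrepOK I st l A U H) (hc : CsOK b H cs₀) :
    ∀ c ∈ hier cs₀, ∀ v, v ∈ A → c v ∈ A := by
  intro c hcs v hv
  rcases hc.into c hcs v with e | e
  · rwa [e]
  · simp only [ends, mem_union, List.mem_toFinset, List.mem_map] at e
    rcases e with ⟨_, ⟨h, hh, rfl⟩, e⟩ | ⟨_, ⟨h, hh, rfl⟩, e⟩
    · exact e ▸ (hp.H_mem hl hh).1
    · exact e ▸ (hp.H_mem hl hh).2.1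

theorem newRoot_mem (hl : LevInv I b st k l) (hp : PrepOK I st l A U H) (hc : CsOK b H cs₀) :
    newRoot l cs₀ ∈ A := labAll_mem (cs_into hl hp hc) ((hp.mem _).2 (Or.inl rfl))

theorem newCs_into (hl : LevInv I b st k l) (hp : PrepOK I st l A U H) (hc : CsOK b H cs₀) :
    ∀ c ∈ newCs l cs₀, ∀ v, v ∈ A → c v ∈ A := by
  intro c hcs v hv
  rcases List.mem_append.1 hcs with h | h
  · exact cs_into hl hp hc c h v hv
  · rw [List.mem_singleton.1 h]; exact newRoot_mem hl hp hc

theorem tr_new (hf : Fit I b B) (hl : LevInv I b st k l) (hp : PrepOK I st l A U H)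
    (hc : CsOK b H cs₀) {par : ℕ → ℕ}
    (hpar : ∀ a, par a = if a ∈ A then firstMove (newCs l cs₀) a else l.par.get a) :
    Tr I.n par (newRoot l cs₀) (1 + (k + 1) * (b.len + 1)) := by
  have hA : ∀ a, a ∈ A → a < I.n := fun a ha => ((hp.mem a).1 ha).lt hf hl
  have hr := newRoot_mem hl hp hc
  have hlen := newCs_length (l := l) hc
  obtain ⟨dep, hd⟩ := hl.tr.dep
  refine ⟨hA _ hr, ?_, fun v hv => ?_,
    fun v => if v ∈ A then rem (newCs l cs₀) v else dep v + (b.len + 1), fun v hv => ⟨?_, ?_⟩⟩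
  · rw [hpar, if_pos hr, firstMove_eq]
    have := newCs_her (l := l) hc (newCs l cs₀).length 0
    rwa [List.take_length, newCs_lab] at this
  · rw [hpar]
    split_ifs with h
    · exact hA _ (firstMove_mem (newCs_into hl hp hc) h)
    · exact hl.tr.lt v hv
  · have := rem_le (newCs l cs₀) v
    have := (hd v hv).1
    simp only [add_mul] at *
    split_ifs <;> omega
  · intro hne
    simp only [hpar v]
    by_cases h : v ∈ A
    · simp only [h, if_true, firstMove_mem (newCs_into hl hp hc) h]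
      refine (rem_firstMove (pre := []) (newCs_her hc) (fun _ h => by simp at h) fun e => hne ?_).2
      exact (firstMove_eq.1 e (fun _ => newRoot l cs₀) (List.mem_append_right _ (by simp))).symm
    · have h1 := (hd v hv).2 fun e => h ((hp.mem v).2 (Or.inl e))
      have := rem_le (newCs l cs₀) (l.par.get v)
      simp only [h, if_false]
      split_ifs <;> omega

theorem sum_count_mul {s : Finset ℕ} (h : ℕ → ℝ) : ∀ {w : List ℕ}, (∀ a ∈ w, a ∈ s) →
    ∑ a ∈ s, (w.count a : ℝ) * h a = (w.map h).sum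
  | [], _ => by simp
  | x :: w, hw => by
    rw [List.map_cons, List.sum_cons, ← sum_count_mul h fun a ha => hw a (by simp [ha])]
    simp only [List.count_cons, Nat.cast_add, add_mul, sum_add_distrib, beq_iff_eq, Nat.cast_ite,
      ite_mul, Nat.cast_one, one_mul, Nat.cast_zero, zero_mul, sum_ite_eq, hw x (by simp), if_true,
      add_comm]

theorem FinOK.sum_cap (hl : LevInv I b st k l) (hp : PrepOK I st l A U H) (hc : CsOK b H cs₀)
    (hn : FinOK I b st k l A H cs₀ l' sg) (h : ℕ → ℝ) : ∑ a ∈ A.toFinset, (l'.cap a : ℝ) * h a =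
      wsum (H.map HE.edge) fun x y => ((walk (newCs l cs₀) x y).map h).sum := by
  rw [sum_congr rfl fun a ha => by rw [(hn.itA a (List.mem_toFinset.1 ha)).2.1]]
  have : ∀ H' : List HE, (∀ x ∈ H', x.1 ∈ A ∧ x.2.1 ∈ A) → ∑ a ∈ A.toFinset,
      (((H'.map fun x => cnt (newCs l cs₀) a x * x.2.2.1).sum : ℕ) : ℝ) * h a =
      wsum (H'.map HE.edge) fun x y => ((walk (newCs l cs₀) x y).map h).sum := by
    intro H'
    induction H' with
    | nil => simp
    | cons x H' ih =>
      intro hH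
      have hx := hH x (by simp)
      simp only [List.map_cons, List.sum_cons, wsum_cons, Nat.cast_add, add_mul, sum_add_distrib,
        ih fun y hy => hH y (by simp [hy]), HE.edge]
      rw [← sum_count_mul (s := A.toFinset) h fun a ha =>
        List.mem_toFinset.2 (walk_mem (newCs_into hl hp hc) hx.1 hx.2 a ha), mul_sum]
      congr 1
      exact sum_congr rfl fun a _ => by simp only [cnt, Nat.cast_mul]; ring
  exact this H fun x hx => ⟨(hp.H_mem hl hx).1, (hp.H_mem hl hx).2.1⟩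

theorem FinOK.wsum_new (hf : Fit I b B) (hl : LevInv I b st k l) (hp : PrepOK I st l A U H)
    (hc : CsOK b H cs₀) (hn : FinOK I b st k l A H cs₀ l' sg) (h : ℕ → ℕ → ℝ) :
    wsum (l'.T I.n) h = (wsum (H.map HE.edge) fun x y =>
      ((walk (newCs l cs₀) x y).map fun a => h a (firstMove (newCs l cs₀) a)).sum) +
      ∑ a ∈ range I.n \ A.toFinset, (l.cap a : ℝ) * h a (l.par.get a) := by
  rw [wsum_T, ← sum_sdiff (hp.sub hf hl), add_comm, ← hn.sum_cap hl hp hc]
  congr 1
  · exact sum_congr rfl fun a ha => by rw [hn.par, if_pos (List.mem_toFinset.1 ha)]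
  · refine sum_congr rfl fun a ha => ?_
    have : a ∉ A := fun h => (mem_sdiff.1 ha).2 (List.mem_toFinset.2 h)
    rw [hn.par, if_neg this, Lev.cap, hn.itN a this, Lev.cap]

theorem fix_nil (a : ℕ) : Fix [] a := fun _ h => by simp at h

theorem FinOK.dom (hf : Fit I b B) (hl : LevInv I b st k l) (hp : PrepOK I st l A U H)
    (hc : CsOK b H cs₀) (hn : FinOK I b st k l A H cs₀ l' sg) (S : ℕ → Prop) :
    cut (l.T I.n) S ≤ cut (l'.T I.n) S := by
  rw [cut, cut, hn.wsum_new hf hl hp hc, wsum_T, ← sum_sdiff (hp.sub hf hl), add_comm]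
  refine add_le_add_left (le_trans ?_ (wsum_le (h := sep S) fun e _ => ?_)) _
  · rw [hp.wsum_eq]
    exact le_add_of_nonneg_right (sum_nonneg fun e _ =>
      mul_nonneg (Nat.cast_nonneg _) (sep_nonneg _ _ _))
  · have h0 : ∀ x ∈ (walk (newCs l cs₀) e.1 e.2.1).map
        fun a => sep S a (firstMove (newCs l cs₀) a), (0 : ℝ) ≤ x := fun x hx => by
      obtain ⟨a, -, rfl⟩ := List.mem_map.1 hx
      exact sep_nonneg _ _ _
    by_cases hs : S e.1 ↔ S e.2.1
    · rw [sep, if_pos hs]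
      exact List.sum_nonneg h0
    · obtain ⟨a, ha, h⟩ := walk_sep S (pre := []) (cs := newCs l cs₀) (newCs_her hc)
        (fix_nil _) (fix_nil _)
        (by rw [newCs_lab, newCs_lab]) hs
      refine (sep_le_one _ _ _).trans (le_trans ?_
        (List.single_le_sum h0 _ (List.mem_map.2 ⟨a, ha, rfl⟩)))
      rw [sep, if_neg (by simpa using h)]

theorem FinOK.nrm_le (hf : Fit I b B) (hl : LevInv I b st k l) (hp : PrepOK I st l A U H)
    (hc : CsOK b H cs₀) (hn : FinOK I b st k l A H cs₀ l' sg) {ψ : ℕ → ℝ} {Osc : ℝ}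
    (hψ : ∀ a a', |ψ a - ψ a'| ≤ Osc) : nrm (l'.T I.n) ψ ≤ TN Osc ψ (hier cs₀) (H.map HE.edge) +
      ∑ a ∈ range I.n \ A.toFinset, (l.cap a : ℝ) * |ψ a - ψ (l.par.get a)| := by
  rw [nrm, hn.wsum_new hf hl hp hc]
  refine add_le_add_left ?_ _
  rw [wsum_congr (h' := fnE ψ (newCs l cs₀)) fun e _ =>
    walk_sum ψ (pre := []) (cs := newCs l cs₀) (newCs_her hc) (fix_nil _) (fix_nil _), ← FN_eq, newCs, FN_append, TN]
  refine add_le_add_right ?_ _
  simp only [FN, add_zero, lev]
  refine wsum_le fun e _ => ?_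
  split_ifs
  · exact le_rfl
  · exact add_le_add (hψ _ _) (hψ _ _)

theorem FinOK.tot_le (hf : Fit I b B) (hl : LevInv I b st k l) (hp : PrepOK I st l A U H)
    (hc : CsOK b H cs₀) (hn : FinOK I b st k l A H cs₀ l' sg) :
    ∑ a ∈ range I.n, l'.cap a + I.m * I.Um ≤ capB I b (k + 1) := by
  have h1 := hn.wsum_new hf hl hp hc fun _ _ => 1
  rw [wsum_T] at h1
  have h2 : (wsum (H.map HE.edge) fun x y => ((walk (newCs l cs₀) x y).map
      fun _ => (1 : ℝ)).sum) ≤ (2 * b.len + 2 : ℕ) * tot (H.map HE.edge) := by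
    rw [tot, ← wsum_mul]
    refine wsum_le fun e _ => ?_
    have := walk_length (newCs l cs₀) e.1 e.2.1
    have := newCs_length (l := l) hc
    simp only [List.map_const', List.sum_replicate, nsmul_eq_mul, mul_one]
    exact_mod_cast (by omega)
  rw [← cast_sum_w] at h2
  simp only [mul_one] at h1
  have h3 : ∑ a ∈ range I.n, l'.cap a ≤ (2 * b.len + 2) *
      ((H.map HE.edge).map fun e => e.2.2).sum + ∑ a ∈ range I.n \ A.toFinset, l.cap a := by
    exact_mod_cast h1.le.trans (add_le_add_left h2 _)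
  have h4 := Nat.mul_le_mul_left (2 * b.len + 2) (hp.tot_le hf hl)
  have h5 := hl.tot
  rw [← sum_sdiff (hp.sub hf hl)] at h5
  have h6 := Nat.mul_le_mul_left (2 * b.len + 3) h5
  rw [capB, pow_succ', mul_assoc, ← capB]
  generalize ∑ a ∈ range I.n \ A.toFinset, l.cap a = x at *
  generalize ∑ a ∈ A.toFinset, l.cap a = y at *
  generalize I.m * I.Um = z at *
  nlinarith [Nat.zero_le (b.len * x), Nat.zero_le y]

theorem FinOK.mass_ge (hf : Fit I b B) (hl : LevInv I b st k l) (hp : PrepOK I st l A U H)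
    (hc : CsOK b H cs₀) (hn : FinOK I b st k l A H cs₀ l' sg) {h : HE} (hh : h ∈ H)
    {S : ℕ → Prop} (hs : ¬ (S h.1 ↔ S h.2.1)) (e : ℕ) :
    ∃ a, a < I.n ∧ ¬ (S a ↔ S (l'.par.get a)) ∧ mass e h.2.2.2 ≤ mass e (l'.it.get a).2 := by
  obtain ⟨a, ha, h1⟩ := walk_sep S (pre := []) (cs := newCs l cs₀) (newCs_her hc)
        (fix_nil _) (fix_nil _)
    (by rw [newCs_lab, newCs_lab]) hs
  have hm := hp.H_mem hl hh
  have haA := walk_mem (newCs_into hl hp hc) hm.1 hm.2.1 a ha
  refine ⟨a, ((hp.mem a).1 haA).lt hf hl, by rwa [hn.par, if_pos haA], ?_⟩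
  rw [(hn.itA a haA).2.2]
  refine le_trans ?_ (List.single_le_sum (by simp) _ (List.mem_map.2 ⟨h, hh, rfl⟩))
  exact Nat.le_mul_of_pos_left _ (List.count_pos_iff.2 ha)

theorem FinOK.closed (hl : LevInv I b st k l) (hp : PrepOK I st l A U H)
    (hc : CsOK b H cs₀) (hn : FinOK I b st k l A H cs₀ l' sg) {v : ℕ} (hv : v ∈ A) :
    l'.par.get v ∈ A := by
  rw [hn.par, if_pos hv]
  exact firstMove_mem (newCs_into hl hp hc) hv

open Classical in
theorem FinOK.G_eq (hf : Fit I b B) (hl : LevInv I b st k l) (hp : PrepOK I st l A U H)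
    (hc : CsOK b H cs₀) (hn : FinOK I b st k l A H cs₀ l' sg) {a : ℕ} (ha : a < I.n) :
    l'.G.get a = ∑ v ∈ range I.n, if Anc l'.par.get a v then st.g.get v else 0 := by
  have ht := tr_new hf hl hp hc hn.par
  let φ : ℕ → ℤ := fun v => if Anc l'.par.get a v then 1 else 0
  have h1 : ∑ v ∈ range I.n, l.gs.get v * φ v =
      ∑ v ∈ range I.n, l.G.get v * (φ v - φ (l.par.get v)) :=
    (hl.tr.sum_mul l.gs.get φ hl.gs_sum).trans
      (sum_congr rfl fun v hv => by rw [hl.G_eq v (mem_range.1 hv)])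
  rw [← sum_sdiff (hp.sub hf hl), ← sum_sdiff (hp.sub hf hl) (f := fun v =>
    l.G.get v * (φ v - φ (l.par.get v)))] at h1
  have h2 : ∑ v ∈ range I.n \ A.toFinset, l.G.get v * (φ v - φ (l.par.get v)) =
      if a ∈ A then 0 else l.G.get a := by
    have h3 : ∀ v ∈ range I.n \ A.toFinset, v ≠ a → l.G.get v * (φ v - φ (l.par.get v)) = 0 := by
      intro v hv hne
      have hv' : v ∉ A := fun h => (mem_sdiff.1 hv).2 (List.mem_toFinset.2 h)
      have e : l.par.get v = l'.par.get v := by rw [hn.par, if_neg hv']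
      have : Anc l'.par.get a v ↔ Anc l'.par.get a (l'.par.get v) := by rw [anc_iff]; simp [hne]
      simp only [φ, e, this, sub_self, mul_zero]
    split_ifs with h
    · exact sum_eq_zero fun v hv => h3 v hv fun e =>
        (mem_sdiff.1 hv).2 (List.mem_toFinset.2 (e ▸ h))
    · rw [sum_eq_single a h3 fun hn' => absurd (mem_sdiff.2 ⟨mem_range.2 ha, by simpa using h⟩) hn']
      have e : l.par.get a = l'.par.get a := by rw [hn.par, if_neg h]
      have := ht.not_anc_par ha fun e => h (e ▸ newRoot_mem hl hp hc)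
      simp [φ, e, this, Anc.refl]
  have h4 : ∑ v ∈ range I.n \ A.toFinset, (if Anc l'.par.get a v then st.g.get v else 0) =
      ∑ v ∈ range I.n \ A.toFinset, l.gs.get v * φ v := by
    refine sum_congr rfl fun v hv => ?_
    have hv' : ¬ InA I l v := fun h => (mem_sdiff.1 hv).2 (List.mem_toFinset.2 ((hp.mem v).2 h))
    rw [hl.gs_eq v (mem_range.1 (mem_sdiff.1 hv).1) fun e he =>
      ⟨fun h => hv' (h ▸ InA.tl he), fun h => hv' (h ▸ InA.hd he)⟩]
    simp [φ]
  have h5 : ∑ v ∈ A.toFinset, ((if Anc l'.par.get a v then l.G.get v + st.g.get v - l.gs.get v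
      else 0) + if Anc l'.par.get a (l.par.get v) then -l.G.get v else 0) =
      ∑ v ∈ A.toFinset, l.G.get v * (φ v - φ (l.par.get v)) - ∑ v ∈ A.toFinset, l.gs.get v * φ v +
        ∑ v ∈ A.toFinset, (if Anc l'.par.get a v then st.g.get v else 0) := by
    rw [← sum_sub_distrib, ← sum_add_distrib]
    refine sum_congr rfl fun v _ => ?_
    simp only [φ]
    split_ifs <;> ring
  rw [hn.G, ← List.sum_toFinset _ hp.nodup, ← sum_sdiff (hp.sub hf hl), h4, ← h2, h5]
  linarith

theorem FinOK.levInv (hf : Fit I b B) (hg : GInv I b st) (hl : LevInv I b st k l)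
    (hp : PrepOK I st l A U H) (hc : CsOK b H cs₀) (hn : FinOK I b st k l A H cs₀ l' sg) :
    LevInv I b st (k + 1) l' := by
  classical
  refine ⟨hn.root ▸ tr_new hf hl hp hc hn.par, fun a => ?_, hn.tot_le hf hl hp hc,
    by simp [hn.U], fun e he _ S hS => ?_, fun a ha => hn.gs ▸ hn.G_eq hf hl hp hc ha,
    hn.gs ▸ hg.sum hf, hn.gs ▸ hg.abs, fun v _ _ => by rw [hn.gs], fun a => ?_⟩
  · by_cases h : a ∈ A
    · exact (hn.itA a h).1
    · rw [hn.itN a h]
      exact (hl.good a).mono (Nat.mul_le_mul_right _ (by omega))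
  · by_cases hU : e ∈ l.U
    · obtain ⟨a, h1, h2, h3⟩ := hn.mass_ge hf hl hp hc (h := fresh I st e) (by
        rw [hp.H_eq]
        exact List.mem_append_right _ (List.mem_map.2 ⟨e, (hp.U_mem e).2 hU, rfl⟩)) hS e
      exact ⟨a, h1, h2, by simpa [fresh, mass] using h3⟩
    · obtain ⟨v, h1, h2, h3⟩ := hl.mass e he hU S hS
      by_cases hv : v ∈ A
      · have h0 : 0 < l.cap v := lt_of_lt_of_le (one_le_uu I st e)
          (h3.trans ((mass_le_wt _ _).trans (hl.good v).1.ge))
        obtain ⟨a, k1, k2, k3⟩ := hn.mass_ge hf hl hp hc (h := (v, l.par.get v, l.it.get v)) (by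
          rw [hp.H_eq]
          exact List.mem_append_left _ (List.mem_filterMap.2 ⟨v, hv, if_pos h0⟩)) h2 e
        exact ⟨a, k1, k2, h3.trans k3⟩
      · exact ⟨v, h1, by rwa [hn.par, if_neg hv], by rwa [hn.itN v hv]⟩
  · rw [hn.good]
    by_cases h : a ∈ A
    · simp [h, ((hp.mem a).1 h).lt hf hl]
    · have h1 : ∀ v, v ∈ A → ¬ Anc l'.par.get a v := fun v hv ha =>
        h (ha.closed (fun w hw => hn.closed hl hp hc hw) hv)
      have h2 : l'.G.get a = l.G.get a := by
        rw [hn.G, if_neg h, List.sum_eq_zero, add_zero]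
        intro x hx
        obtain ⟨v, hv, rfl⟩ := List.mem_map.1 hx
        rw [if_neg (h1 v hv), if_neg (h1 _ ((hp.mem _).2 (((hp.mem v).1 hv).up hl.tr))), add_zero]
      rw [if_neg h, hl.flag, h2, Lev.cap, Lev.cap, hn.itN a h]

theorem FinOK.link (hf : Fit I b B) (hl : LevInv I b st k l) (hp : PrepOK I st l A U H)
    (hc : CsOK b H cs₀) (hn : FinOK I b st k l A H cs₀ l' sg) : Link I l l' := by
  refine ⟨fun v _ => ?_, hn.root ▸ (hp.mem _).1 (newRoot_mem hl hp hc), by simp [hn.U],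
    hn.dom hf hl hp hc⟩
  by_cases h : v ∈ A
  · exact Or.inr ⟨(hp.mem v).1 h, (hp.mem _).1 (hn.closed hl hp hc h)⟩
  · exact Or.inl (by rw [hn.par, if_neg h])

end Vale.Agent.P305D
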