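import Vale.Agent.P305E.MinArr
import Vale.Agent.P305E.Rand
import Vale.Agent.P305S.Defs

/-!
# The dynamic structure for the interior point method: definitions

Levels `0, …, L` of trees on the vertices; every tree edge `(a, par a)` has a weighted tree of arcs.
-/

namespace Vale.Agent.P305D

open Vale.Agent.P305E Vale.Agent.P305S Finset

/-! ### Weighted trees of arcs -/

/-- Leaves: an arc and a weight; inner nodes: the weight of the left subtree. -/
abbrev WT : Type := BT ℕ (ℕ × ℕ)

/-- The total weight. -/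
def wt : WT → ℕ
  | .leaf p => p.2
  | .node _ l r => wt l + wt r

/-- The weight of the leaves with arc `e`. -/
def mass (e : ℕ) : WT → ℕ
  | .leaf p => if p.1 = e then p.2 else 0
  | .node _ l r => mass e l + mass e r

/-- The labels are right and the depth is at most `d`. -/
def WGood : ℕ → WT → Prop
  | _, .leaf _ => True
  | 0, .node _ _ _ => False
  | d + 1, .node w l r => w = wt l ∧ WGood d l ∧ WGood d r

/-- The arc at position `x`. -/
def desc : WT → ℕ → ℕ
  | .leaf p, _ => p.1
  | .node w l r, x => if x < w then desc l x else desc r (x - w)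

/-- A weight with its tree. -/
abbrev Item : Type := ℕ × WT

/-- The item of weight `0`. -/
def Item.zero : Item := (0, .leaf (0, 0))

/-- The item is consistent, with depth at most `d`. -/
def IGood (d : ℕ) (x : Item) : Prop := x.1 = wt x.2 ∧ WGood d x.2

/-- One pass that joins the items in pairs. -/
def pairUp (l : List Item) : M (List Item) :=
  loopM (fun s : List Item × List Item => caseL s.1 (pure (.inr s.2)) fun x r =>
    caseL r (pure (.inr (x :: s.2))) fun y r' =>
      num (x.1 + y.1) >>= fun w => pure (.inl (r', (w, BT.node x.1 x.2 y.2) :: s.2)))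
    (l.length + 1) (l, [])

/-- The join of a list of items. -/
def build (l : List Item) : M Item :=
  loopM (fun s : List Item => caseL s (pure (.inr Item.zero)) fun x r =>
    caseL r (pure (.inr x)) fun _ _ => pairUp s >>= fun s' => pure (.inl s')) (l.length + 1) l

/-- The descent to the arc at position `x`. -/
def descM (d : ℕ) (t : WT) (x : ℕ) : M ℕ :=
  loopM (fun s : WT × ℕ => caseT s.1 (fun p => pure (.inr p.1)) fun w l r =>
    if s.2 < w then pure (.inl (l, s.2)) else pure (.inl (r, s.2 - w))) (d + 1) (t, x)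

/-! ### Rooted trees on the vertices -/

/-- `a` is an ancestor of `v` (or `v` itself). -/
def Anc (par : ℕ → ℕ) (a v : ℕ) : Prop := ∃ k, par^[k] v = a

/-- `par` is a tree on `0, …, n - 1` with root `r` and depth at most `D`. -/
structure Tr (n : ℕ) (par : ℕ → ℕ) (r D : ℕ) : Prop where
  root_lt : r < n
  root : par r = r
  lt : ∀ v, v < n → par v < n
  dep : ∃ dep : ℕ → ℕ, ∀ v, v < n → dep v ≤ D ∧ (v ≠ r → dep (par v) < dep v)

/-- The list of the ancestors of `v`. -/
def pathM (D : ℕ) (par : Arr ℕ) (v : ℕ) : M (List ℕ) :=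
  loopM (fun s : ℕ × List ℕ => if par.get s.1 = s.1 then pure (.inr (s.1 :: s.2))
    else pure (.inl (par.get s.1, s.1 :: s.2))) (D + 1) (v, [])

/-- Removal of repetitions. -/
def dedupM (l : List ℕ) : M (List ℕ) :=
  foldP (fun (s : List ℕ × Arr Bool) x => if s.2.get x = true then s else
    (x :: s.1, s.2.set x true)) ([], Arr.const false) l >>= fun s => pure s.1

/-- The map that an array of the sampler stands for. -/
def relab (A : Arr ℕ) (a : ℕ) : ℕ := if A.get a = 0 then a else A.get a - 1

/-- The hierarchy that the result of the sampler stands for. -/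
def hier (cs : List (Arr ℕ)) : List (ℕ → ℕ) := cs.map relab

/-- A label of level `j` is fixed by the first `j` maps. -/
def Her (cs : List (ℕ → ℕ)) : Prop :=
  ∀ j v, ∀ c ∈ cs.take j, c (labAll (cs.take j) v) = labAll (cs.take j) v

/-- The image of `a` under the first map that moves `a`. -/
def firstMove : List (ℕ → ℕ) → ℕ → ℕ
  | [], a => a
  | c :: cs, a => if c a = a then firstMove cs a else c a

/-- The nodes whose tree edge is crossed by the edge `x y`. -/
def walk : List (ℕ → ℕ) → ℕ → ℕ → List ℕ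
  | [], _, _ => []
  | c :: cs, x, y => (if x ≠ y ∧ c x ≠ x then [x] else []) ++
      ((if x ≠ y ∧ c y ≠ y then [y] else []) ++ walk cs (c x) (c y))

/-- What the dynamic structure needs from the static sampler. -/
structure Smp (B n Emax Ub len Cs : ℕ) (Q Osc : ℝ) (smp : List Edge → M (List (Arr ℕ))) :
    Prop where
  tri : ∀ E : List Edge, E.length ≤ Emax → (∀ e ∈ E, e.1 < n ∧ e.2.1 < n ∧ 1 ≤ e.2.2) →
    (E.map fun e => e.2.2).sum ≤ Ub → Tri ⟨B, true⟩ (smp E) fun cs t =>
      cs.length ≤ len ∧ Her (hier cs) ∧ (∀ c ∈ hier cs, ∀ v, c v = v ∨ c v ∈ ends E) ∧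
      t ≤ Cs * (E.length + 1)
  exp : ∀ E : List Edge, E.length ≤ Emax → (∀ e ∈ E, e.1 < n ∧ e.2.1 < n ∧ 1 ≤ e.2.2) →
    (E.map fun e => e.2.2).sum ≤ Ub → ∀ ψ : ℕ → ℝ, (∀ a b, |ψ a - ψ b| ≤ Osc) → ∀ p : ℝ,
      wp B (smp E) (fun cs _ => TN Osc ψ (hier cs) E) p ≤ Q * nrm E ψ + 1

/-! ### Instances, levels, states -/

/-- A transshipment instance with the parameters of the structure. `c` are the scaled costs,
`K2 = 1 / κ`, `uOf S = A1 / S + A2 / S² + 2`; `D` and `dw` (bounds for the depths) are ghosts. -/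
structure Ins where
  n : ℕ
  m : ℕ
  tl : Arr ℕ
  hd : Arr ℕ
  c : Arr ℕ
  d : Arr ℤ
  L : ℕ
  K2 : ℕ
  A1 : ℕ
  A2 : ℕ
  Smax : ℕ
  D : ℕ
  dw : ℕ

/-- One level. -/
structure Lev where
  par : Arr ℕ
  root : ℕ
  it : Arr Item
  G : Arr ℤ
  gs : Arr ℤ
  good : MinArr
  U : List ℕ

/-- The state; `y` is a ghost. -/
structure St where
  lam : ℕ
  sg : Arr ℤ
  ss : Arr ℕ
  g : Arr ℤ
  lv : Arr Lev
  y : ℕ → ℤ

/-- The scaled value of `1 / s + δ / s²`. -/
def Ins.uOf (I : Ins) (S : ℕ) : ℕ := I.A1 / S + I.A2 / (S * S) + 2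

/-- The bound for `uOf`. -/
def Ins.Um (I : Ins) : ℕ := I.A1 + I.A2 + 2

/-- The scaled slack of an arc. -/
def Ins.slack (I : Ins) (y : ℕ → ℤ) (e : ℕ) : ℤ := I.c.get e - y (I.hd.get e) + y (I.tl.get e)

/-- The slack, cut to `[1, Smax]`. -/
def Ins.clamp (I : Ins) (s : ℤ) : ℕ := max 1 (min I.Smax s.toNat)

/-- The capacity of an arc. -/
def St.uu (I : Ins) (st : St) (e : ℕ) : ℕ := I.uOf (st.ss.get e)

/-- The gradient for given capacities. -/
def Ins.grad (I : Ins) (lam : ℕ) (u : ℕ → ℕ) (v : ℕ) : ℤ :=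
  -(lam * I.d.get v) + ∑ e ∈ range I.m, ((if I.hd.get e = v then (u e : ℤ) else 0) -
    if I.tl.get e = v then (u e : ℤ) else 0)

/-- The capacity of the tree edge at `a`. -/
def Lev.cap (l : Lev) (a : ℕ) : ℕ := (l.it.get a).1

/-- The tree as a list of edges. -/
def Lev.T (n : ℕ) (l : Lev) : List Edge := (List.range n).map fun a => (a, l.par.get a, l.cap a)

/-- The tree of level `i`. -/
def St.T (I : Ins) (st : St) (i : ℕ) : List Edge := (st.lv.get i).T I.n

/-- The arcs refreshed since level `i` was built. -/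
def St.U (st : St) (i : ℕ) : List ℕ := (st.lv.get i).U

/-- The current level. -/
def St.top (I : Ins) (st : St) : Lev := st.lv.get I.L

/-- The graph of all arcs with the current capacities. -/
def St.arcs (I : Ins) (st : St) : List Edge :=
  (List.range I.m).map fun e => (I.tl.get e, I.hd.get e, st.uu I e)

/-! ### Programs -/

/-- The value of `y v`. -/
def readY (I : Ins) (st : St) (v : ℕ) : M ℤ :=
  loopM (fun s : ℕ × ℤ => inum (s.2 + st.sg.get s.1) >>= fun z =>
    if (st.top I).par.get s.1 = s.1 then pure (.inr z)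
    else pure (.inl ((st.top I).par.get s.1, z))) (I.D + 1) (v, 0)

/-- A tree edge with a large gradient. -/
noncomputable def cand (I : Ins) (st : St) : Option ℕ := (st.top I).good.min.elim none fun p => some p.2

open Classical in
/-- The step: `y` grows by `amt` on the subtree of `a`. -/
noncomputable def move (I : Ins) (st : St) (a : ℕ) (amt : ℤ) : M St :=
  inum (st.sg.get a + amt) >>= fun z => pure ⟨st.lam, st.sg.set a z, st.ss, st.g, st.lv,
    fun v => st.y v + if Anc (st.top I).par.get a v then amt else 0⟩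

/-- A random arc of the tree edge at `a`. -/
def draw (I : Ins) (st : St) (a : ℕ) : M ℕ :=
  rbits (Nat.size ((st.top I).cap a)) >>= fun x => descM I.dw ((st.top I).it.get a).2 x

/-- `g v` grows by `x`. -/
def addAt (g : Arr ℤ) (v : ℕ) (x : ℤ) : M (Arr ℤ) :=
  inum (g.get v + x) >>= fun z => pure (g.set v z)

/-- The arc `e` is put on the list of a level. -/
def Lev.push (l : Lev) (e : ℕ) : Lev := ⟨l.par, l.root, l.it, l.G, l.gs, l.good, e :: l.U⟩

/-- The slack of `e` is read again. -/
def refresh (I : Ins) (st : St) (e : ℕ) : M St :=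
  if e < I.m then do
    let yh ← readY I st (I.hd.get e)
    let yt ← readY I st (I.tl.get e)
    let s ← num (I.clamp (I.c.get e - yh + yt))
    let δ ← inum ((I.uOf s : ℤ) - st.uu I e)
    let g₁ ← addAt st.g (I.hd.get e) δ
    let g₂ ← addAt g₁ (I.tl.get e) (-δ)
    let k ← num (I.L + 1)
    let lv ← iterM (fun lv i => pure (lv.set i ((lv.get i).push e))) st.lv k
    pure ⟨st.lam, st.sg, st.ss.set e s, g₂, lv, st.y⟩
  else pure st

/-- `k` independent random arcs of the tree edge at `a`. -/
def drawN (I : Ins) (st : St) (a k : ℕ) : M (List ℕ) :=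
  iterM (fun l _ => draw I st a >>= fun e => pure (e :: l)) [] k

/-- The slacks of the arcs of a list are read again. -/
def refreshAll (I : Ins) (st : St) (l : List ℕ) : M St := foldM (refresh I) st l

/-- A new value of `lam`; the gradient is computed from scratch. -/
def setLam (I : Ins) (st : St) (lam : ℕ) : M St := do
  let g₀ ← iterM (fun (g : Arr ℤ) v => addAt g v (-(lam * I.d.get v))) (Arr.const 0) I.n
  let g ← iterM (fun g e => inum (st.uu I e) >>= fun u =>
    addAt g (I.hd.get e) u >>= fun g₁ => addAt g₁ (I.tl.get e) (-u)) g₀ I.m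
  pure ⟨lam, st.sg, st.ss, g, st.lv, st.y⟩

/-- The level below level `0`: a star without capacities. -/
def baseLev (U : List ℕ) : Lev :=
  ⟨Arr.const 0, 0, Arr.const Item.zero, Arr.const 0, Arr.const 0, MinArr.empty, U⟩

/-- The level on which level `i` is built. -/
def prevLev (I : Ins) (st : St) (i : ℕ) : M Lev :=
  if i = 0 then rangeP I.m >>= fun U => pure (baseLev U) else pure (st.lv.get (i - 1))

/-- The first state: `y = 0`, slacks = costs (cut to `[1, Smax]`). -/
def initSt (I : Ins) : M St := do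
  let ss ← iterM (fun (ss : Arr ℕ) e => num (I.clamp (I.c.get e)) >>= fun s => pure (ss.set e s))
    (Arr.const 1) I.m
  pure ⟨0, Arr.const 0, ss, Arr.const 0, Arr.const (baseLev []), fun _ => 0⟩

/-- An edge of the graph for the sampler, with its item. -/
abbrev HE : Type := ℕ × ℕ × Item

/-- The edge without its tree. -/
def HE.edge (h : HE) : Edge := (h.1, h.2.1, h.2.2.1)

/-- The absorbed vertices and the graph for the sampler. -/
def prep (I : Ins) (st : St) (l : Lev) : M (List ℕ × List HE) := do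
  let U ← dedupM l.U
  let ps ← mapM' (fun e => pathM I.D l.par (I.tl.get e) >>= fun p =>
    pathM I.D l.par (I.hd.get e) >>= fun q => appendP p q) U
  let xs ← flattenP ps
  let A ← dedupM (l.root :: xs)
  let H₁ ← filterMapP (fun a => if 0 < l.cap a then some (a, l.par.get a, l.it.get a) else none) A
  let H₂ ← mapM' (fun e => num (st.uu I e) >>= fun u =>
    pure (I.tl.get e, I.hd.get e, u, BT.leaf (e, u))) U
  let H ← appendP H₁ H₂
  pure (A, H)

/-- The lists of items of the new tree edges. -/
def collect (cs : List (Arr ℕ)) (H : List HE) : M (Arr (List Item)) :=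
  foldM (fun acc h => foldP (fun (s : Arr (List Item) × ℕ × ℕ) c =>
      ((if s.2.1 ≠ s.2.2 ∧ relab c s.2.2 ≠ s.2.2 then
        (if s.2.1 ≠ s.2.2 ∧ relab c s.2.1 ≠ s.2.1 then s.1.set s.2.1 (h.2.2 :: s.1.get s.2.1)
          else s.1).set s.2.2 (h.2.2 :: s.1.get s.2.2)
        else (if s.2.1 ≠ s.2.2 ∧ relab c s.2.1 ≠ s.2.1 then s.1.set s.2.1 (h.2.2 :: s.1.get s.2.1)
          else s.1)), relab c s.2.1, relab c s.2.2)) (acc, h.1, h.2.1) cs >>= fun s => pure s.1)
    (Arr.const []) H

/-- `x` is added along the path from `v` to the root. -/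
def addPath (D : ℕ) (par : Arr ℕ) (G : Arr ℤ) (v : ℕ) (x : ℤ) : M (Arr ℤ) :=
  pathM D par v >>= fun p => foldM (fun G a => addAt G a x) G p

/-- The new level and the new offsets. -/
def finish (I : Ins) (st : St) (l : Lev) (A : List ℕ) (H : List HE) (cs₀ : List (Arr ℕ)) :
    M (Lev × Arr ℤ) := do
  let r ← foldP (fun v c => relab c v) l.root cs₀
  let r₁ ← num (r + 1)
  let cs ← appendP cs₀ [Arr.const r₁]
  let par ← foldM (fun (par : Arr ℕ) a => foldP (fun v c => if v = a then relab c a else v) a cs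
    >>= fun b => pure (par.set a b)) l.par A
  let acc ← collect cs H
  let it ← foldM (fun (it : Arr Item) a => build (acc.get a) >>= fun x => pure (it.set a x)) l.it A
  let G₀ ← foldP (fun (G : Arr ℤ) a => G.set a 0) l.G A
  let G ← foldM (fun G b => inum (l.G.get b + st.g.get b - l.gs.get b) >>= fun x =>
    addPath I.D par G b x >>= fun G₁ => addPath I.D par G₁ (l.par.get b) (-l.G.get b)) G₀ A
  let good ← foldP (fun (q : MinArr) a => q.set a
    (if (it.get a).1 < I.K2 * (G.get a).natAbs then some (0, a) else none)) l.good A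
  let ya ← foldM (fun (ya : Arr ℤ) a => readY I st a >>= fun z => pure (ya.set a z))
    (Arr.const 0) A
  let sg ← foldM (fun (sg : Arr ℤ) a =>
    inum (if par.get a = a then ya.get a else ya.get a - ya.get (par.get a)) >>= fun z =>
      pure (sg.set a z)) st.sg A
  pure (⟨par, r, it, G, st.g, good, []⟩, sg)

/-- The levels `i, …, L` are built again. -/
def rebuild (smp : List Edge → M (List (Arr ℕ))) (I : Ins) (st : St) (i : ℕ) : M St := do
  let l ← prevLev I st i
  let AH ← prep I st l
  let E ← mapP HE.edge AH.2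
  let cs ← smp E
  let r ← finish I st l AH.1 AH.2 cs
  let k ← num (I.L + 1)
  let lv ← iterM (fun lv j => pure (if i ≤ j then lv.set j r.1 else lv)) st.lv k
  pure ⟨st.lam, r.2, st.ss, st.g, lv, st.y⟩

/-! ### Invariants -/

/-- The vertices that are absorbed when a level is built on `l`. -/
def InA (I : Ins) (l : Lev) (v : ℕ) : Prop :=
  v = l.root ∨ ∃ e ∈ l.U, Anc l.par.get v (I.tl.get e) ∨ Anc l.par.get v (I.hd.get e)

/-- Sizes: `len` bounds the number of maps of the sampler, `bw` the binary length of the number of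
items of a tree edge, `Gm` the sum of the absolute values of a gradient, `Ym` the values of `y`. -/
structure Bnd where
  len : ℕ
  bw : ℕ
  Gm : ℕ
  Ym : ℕ

/-- The bound for the total capacity of a tree that is built `k` times on top of the star. -/
def capB (I : Ins) (b : Bnd) (k : ℕ) : ℕ := (2 * b.len + 3) ^ k * (I.m * I.Um)

open Classical in
/-- The invariant of a level that is built `k` times on top of the star. -/
structure LevInv (I : Ins) (b : Bnd) (st : St) (k : ℕ) (l : Lev) : Prop where
  tr : Tr I.n l.par.get l.root (1 + k * (b.len + 1))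
  good : ∀ a, IGood (k * b.bw) (l.it.get a)
  tot : ∑ a ∈ range I.n, l.cap a + I.m * I.Um ≤ capB I b k
  U_lt : ∀ e ∈ l.U, e < I.m
  mass : ∀ e, e < I.m → e ∉ l.U → ∀ S : ℕ → Prop, ¬ (S (I.tl.get e) ↔ S (I.hd.get e)) →
    ∃ a, a < I.n ∧ ¬ (S a ↔ S (l.par.get a)) ∧ st.uu I e ≤ mass e (l.it.get a).2
  G_eq : ∀ a, a < I.n → l.G.get a = ∑ v ∈ range I.n, if Anc l.par.get a v then l.gs.get v else 0
  gs_sum : ∑ v ∈ range I.n, l.gs.get v = 0
  gs_abs : ∑ v ∈ range I.n, (l.gs.get v).natAbs ≤ b.Gm
  gs_eq : ∀ v, v < I.n → (∀ e ∈ l.U, I.tl.get e ≠ v ∧ I.hd.get e ≠ v) → l.gs.get v = st.g.get v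
  flag : ∀ a, l.good.get a =
    if a < I.n ∧ l.cap a < I.K2 * (l.G.get a).natAbs then some (0, a) else none

/-- The link between two consecutive levels. -/
structure Link (I : Ins) (l l' : Lev) : Prop where
  par : ∀ v, v < I.n → l'.par.get v = l.par.get v ∨ (InA I l v ∧ InA I l (l'.par.get v))
  root : InA I l l'.root
  sub : ∀ e ∈ l'.U, e ∈ l.U
  dom : ∀ S, cut (l.T I.n) S ≤ cut (l'.T I.n) S

/-- The part of the invariant that does not speak of the levels below `L`. -/
structure Core (I : Ins) (b : Bnd) (st : St) : Prop where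
  tr : Tr I.n (st.top I).par.get (st.top I).root I.D
  y_eq : ∀ v, v < I.n → st.y v = st.sg.get v +
    if (st.top I).par.get v = v then 0 else st.y ((st.top I).par.get v)
  y_abs : ∀ v, v < I.n → (st.y v).natAbs ≤ b.Ym
  ss : ∀ e, 1 ≤ st.ss.get e

/-- The gradient is up to date. -/
structure GInv (I : Ins) (b : Bnd) (st : St) : Prop where
  eq : ∀ v, v < I.n → st.g.get v = I.grad st.lam (st.uu I) v
  lam : st.lam * (∑ v ∈ range I.n, (I.d.get v).natAbs) + 2 * (I.m * I.Um) ≤ b.Gm

/-- The invariant (between a refresh and the next rebuild `st.U L` is not empty). -/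
structure Inv (I : Ins) (b : Bnd) (st : St) : Prop where
  core : Core I b st
  g : GInv I b st
  lev : ∀ i, i ≤ I.L → LevInv I b st (i + 1) (st.lv.get i)
  link : ∀ i, i < I.L → Link I (st.lv.get i) (st.lv.get (i + 1))

/-- The conditions on the instance and on the sizes. -/
structure Fit (I : Ins) (b : Bnd) (B : ℕ) : Prop where
  n_pos : 0 < I.n
  ends : ∀ e, e < I.m → I.tl.get e < I.n ∧ I.hd.get e < I.n
  cover : ∀ v, v < I.n → ∃ e, e < I.m ∧ (I.tl.get e = v ∨ I.hd.get e = v)
  d_sum : ∑ v ∈ range I.n, I.d.get v = 0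
  D : I.D = 1 + (I.L + 1) * (b.len + 1)
  dw : I.dw = (I.L + 1) * b.bw
  bw : 2 * (b.len + 1) * (I.n + I.m) < 2 ^ b.bw
  Smax : 1 ≤ I.Smax
  B₁ : 2 * capB I b (I.L + 1) ≤ B
  B₂ : 8 * (I.n + 1) * b.Gm + 4 * b.Ym + I.Smax + I.Um + I.L + I.n + I.m + 1 ≤ B

end Vale.Agent.P305D
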