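import Vale.Agent.P305D.Build

/-!
# The dynamic structure: the program that builds the new level
-/

namespace Vale.Agent.P305D

open Vale.Agent.P305E Vale.Agent.P305S Finset

variable {I : Ins} {b : Bnd} {B k : ℕ} {st : St} {l : Lev} {A U : List ℕ} {H : List HE}
  {cs₀ : List (Arr ℕ)} {cn : Bool} {c : Cx}

theorem collect_inner (z : Item) (cs : List (Arr ℕ)) (s : Arr (List Item) × ℕ × ℕ) (a : ℕ) :
    (cs.foldl (fun (s : Arr (List Item) × ℕ × ℕ) c =>
      ((if s.2.1 ≠ s.2.2 ∧ relab c s.2.2 ≠ s.2.2 then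
        (if s.2.1 ≠ s.2.2 ∧ relab c s.2.1 ≠ s.2.1 then s.1.set s.2.1 (z :: s.1.get s.2.1)
          else s.1).set s.2.2 (z :: s.1.get s.2.2)
        else (if s.2.1 ≠ s.2.2 ∧ relab c s.2.1 ≠ s.2.1 then s.1.set s.2.1 (z :: s.1.get s.2.1)
          else s.1)), relab c s.2.1, relab c s.2.2)) s).1.get a =
      List.replicate ((walk (hier cs) s.2.1 s.2.2).count a) z ++ s.1.get a := by
  induction cs generalizing s with
  | nil => simp [hier, walk]
  | cons c cs ih =>
    obtain ⟨acc, x, y⟩ := s
    rw [List.foldl_cons, ih]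
    simp only [hier, List.map_cons, walk, List.count_append]
    have key : ∀ n : ℕ, List.replicate n z ++ z :: acc.get a =
        List.replicate (1 + n) z ++ acc.get a := fun n => by
      rw [add_comm, List.replicate_succ', List.append_assoc]; rfl
    by_cases h1 : x ≠ y ∧ relab c x ≠ x <;> by_cases h2 : x ≠ y ∧ relab c y ≠ y
    · simp only [if_pos h1, if_pos h2, Arr.get_set, List.count_singleton, beq_iff_eq]
      by_cases e1 : a = y
      · subst e1; simp [h1.1, key]
      · by_cases e2 : a = x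
        · subst e2; simp [h1.1, Ne.symm h1.1, key]
        · simp [e1, e2, Ne.symm e1, Ne.symm e2]
    · simp only [if_pos h1, if_neg h2, Arr.get_set, List.count_singleton, beq_iff_eq]
      by_cases e2 : a = x
      · subst e2; simp [key]
      · simp [e2, Ne.symm e2]
    · simp only [if_neg h1, if_pos h2, Arr.get_set, List.count_singleton, beq_iff_eq]
      by_cases e1 : a = y
      · subst e1; simp [key]
      · simp [e1, Ne.symm e1]
    · simp [if_neg h1, if_neg h2]

theorem collect_tri (cs : List (Arr ℕ)) (H : List HE) :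
    Tri c (collect cs H) fun acc t => (∀ a (f : Item → ℕ), ((acc.get a).map f).sum =
      (H.map fun h => cnt (hier cs) a h * f h.2.2).sum) ∧
      (∀ a, ∀ x ∈ acc.get a, ∃ h ∈ H, x = h.2.2) ∧ t ≤ H.length * (cs.length + 1) := by
  refine Tri.foldM (fun H (acc : Arr (List Item)) t => (∀ a (f : Item → ℕ),
    ((acc.get a).map f).sum = (H.map fun h => cnt (hier cs) a h * f h.2.2).sum) ∧
    (∀ a, ∀ x ∈ acc.get a, ∃ h ∈ H, x = h.2.2) ∧ t ≤ H.length * (cs.length + 1)) (by simp) ?_
  rintro pre h rest acc t - ⟨h1, h2, h3⟩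
  simp only [Tri_bind, Tri_foldP, Tri_pure, collect_inner]
  refine ⟨fun a f => ?_, fun a x hx => ?_, ?_⟩
  · simp [h1, cnt, add_comm]
  · rcases List.mem_append.1 hx with hx | hx
    · exact ⟨h, by simp, List.eq_of_mem_replicate hx⟩
    · obtain ⟨h', k1, k2⟩ := h2 a x hx
      exact ⟨h', by simp [k1], k2⟩
  · simp only [List.length_append, List.length_singleton, add_mul]
    omega

open Classical in
theorem addPath_tri {n r D : ℕ} {par : Arr ℕ} (ht : Tr n par.get r D) {G : Arr ℤ} {v : ℕ} {x : ℤ}
    (hv : v < n) (hB : ∀ a, Anc par.get a v → (G.get a + x).natAbs ≤ c.B) :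
    Tri c (addPath D par G v x) fun G' t =>
      (∀ a, G'.get a = G.get a + if Anc par.get a v then x else 0) ∧ t ≤ 2 * D + 1 := by
  refine (pathM_tri ht hv).bind ?_
  rintro p t ⟨h1, h2, h3, h4⟩
  refine (Tri.foldM (fun pre (G' : Arr ℤ) t => (∀ a, G'.get a = G.get a +
    if a ∈ pre then x else 0) ∧ t = pre.length) (by simp) ?_).mono ?_
  · rintro pre a rest G' _ e ⟨k1, rfl⟩
    have ha : a ∉ pre := fun h => by
      rw [e] at h2
      exact (List.nodup_append.1 h2).2.2 a h a (by simp) rfl
    simp only [addAt_tri, k1 a, ha, if_false, add_zero, Arr.get_set]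
    refine ⟨hB a ((h1 a).1 (by simp [e])), fun a' => ?_, by simp⟩
    by_cases e' : a' = a <;> simp [e', k1]
  · rintro G' _ ⟨k1, rfl⟩
    exact ⟨fun a => by simp only [k1, h1], by omega⟩

theorem sum_count_le {A : List ℕ} (hA : A.Nodup) (w : List ℕ) :
    (A.map fun a => w.count a).sum ≤ w.length := by
  induction w with
  | nil => simp
  | cons x w ih =>
    simp only [List.count_cons, List.sum_map_add, List.length_cons, beq_iff_eq]
    refine Nat.add_le_add ih ?_
    rw [← List.sum_toFinset _ hA, sum_ite_eq]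
    split_ifs <;> omega

theorem sum_cnt_le {A : List ℕ} (hA : A.Nodup) (cs : List (ℕ → ℕ)) (H : List HE) :
    (A.map fun a => (H.map fun h => cnt cs a h * 1).sum).sum ≤ H.length * (2 * cs.length) := by
  induction H with
  | nil => simp
  | cons h H ih =>
    have := (sum_count_le hA (walk cs h.1 h.2.1)).trans (walk_length _ _ _)
    simp only [List.map_cons, List.sum_cons, List.sum_map_add, List.length_cons, add_mul, cnt,
      mul_one] at *
    omega

theorem sum_cnt_mul_le (cs : List (ℕ → ℕ)) (a : ℕ) (H : List HE) (f : HE → ℕ) :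
    (H.map fun h => cnt cs a h * f h).sum ≤ 2 * cs.length * (H.map f).sum := by
  rw [← List.sum_map_mul_left]
  exact List.sum_le_sum fun h _ => Nat.mul_le_mul_right _
    (List.count_le_length.trans (walk_length _ _ _))

theorem LevInv.G_abs (hl : LevInv I b st k l) {a : ℕ} (ha : a < I.n) :
    (l.G.get a).natAbs ≤ b.Gm := by
  rw [hl.G_eq a ha]
  refine (Int.natAbs_sum_le _ _).trans (le_trans (sum_le_sum fun v _ => ?_) hl.gs_abs)
  split_ifs <;> simp

theorem finish_tri (hf : Fit I b B) (hco : Core I b st) (hg : GInv I b st)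
    (hl : LevInv I b st k l) (hk : k ≤ I.L) (hp : PrepOK I st l A U H) (hc : CsOK b H cs₀) :
    Tri ⟨B, cn⟩ (finish I st l A H cs₀) fun r t => FinOK I b st k l A H cs₀ r.1 r.2 ∧
      t ≤ 2 * b.len + A.length * (b.len + 5 * I.D + 12) + H.length * (9 * b.len + 10) := by
  classical
  have hB := hf.B₂
  have hA : ∀ a, a ∈ A → a < I.n := fun a ha => ((hp.mem a).1 ha).lt hf hl
  have hr := hA _ (newRoot_mem hl hp hc)
  have hlen := newCs_length (l := l) hc
  have hlen0 := hc.len
  have hcs : hier (cs₀ ++ [Arr.const (newRoot l cs₀ + 1)]) = newCs l cs₀ := by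
    simp only [hier, List.map_append, newCs, List.map_singleton]
    congr 2
  have hcl : (cs₀ ++ [Arr.const (newRoot l cs₀ + 1)]).length ≤ b.len + 1 := by simpa using hlen0
  simp only [finish, Tri_bind, Tri_foldP, Tri_num, Tri_appendP, foldl_relab]
  rw [show labAll (hier cs₀) l.root = newRoot l cs₀ from rfl]
  refine ⟨by omega, (Tri.setAll (P := fun a v => v = firstMove (newCs l cs₀) a)
    (T := fun _ => b.len + 1) _ fun a _ => ?_).mono ?_⟩
  · simp only [Tri_foldP, foldl_firstMove, hcs, true_and, hcl]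
  rintro par t₁ ⟨p1, p2, p3⟩
  have hpar : ∀ a, par.get a = if a ∈ A then firstMove (newCs l cs₀) a else l.par.get a :=
    fun a => by split_ifs with h; exacts [p1 a h, p2 a h]
  have ht : Tr I.n par.get (newRoot l cs₀) I.D := (tr_new hf hl hp hc hpar).mono
    (by rw [hf.D]; exact Nat.add_le_add_left (Nat.mul_le_mul_right _ (by omega)) _)
  have hcl' : ∀ v, v ∈ A → par.get v ∈ A := fun v hv => by
    rw [p1 v hv]; exact firstMove_mem (newCs_into hl hp hc) hv
  refine (collect_tri _ H).mono ?_
  rintro acc t₂ ⟨c1, c2, c3⟩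
  rw [hcs] at c1
  refine (Tri.setAll (P := fun a x => IGood ((k + 1) * b.bw) x ∧ x.1 = wsumI (acc.get a) ∧
    ∀ e, mass e x.2 = msumI e (acc.get a)) (T := fun a => 4 * (acc.get a).length) _
    fun a _ => ?_).mono ?_
  · refine (build_tri (d := k * b.bw) (k := b.bw) (fun x hx => ?_) ?_ ?_).mono
      fun x t h => ⟨⟨by rw [add_mul, one_mul]; exact h.1, h.2.1, h.2.2.1⟩, h.2.2.2⟩
    · obtain ⟨h, hh, rfl⟩ := c2 a x hx
      exact (hp.H_mem hl hh).2.2.2
    · rw [wsumI, c1]
      have h1 := hp.tot_le' hf hl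
      have h2 := capB_mono I b (show k + 1 ≤ I.L + 1 by omega)
      have h3 := hf.B₁
      rw [List.map_map] at h1
      rw [capB, pow_succ', mul_assoc, ← capB] at h2
      refine (sum_cnt_mul_le _ _ _ _).trans ((Nat.mul_le_mul (show _ ≤ 2 * b.len + 3 by omega)
        h1).trans (show _ ≤ B by omega))
    · have h1 := c1 a fun _ => 1
      have h2 := sum_cnt_mul_le (newCs l cs₀) a H fun _ => 1
      have h3 := (hp.H_len hf hl).2
      have h4 := hf.bw
      simp only [List.map_const', List.sum_replicate, smul_eq_mul, mul_one] at h1 h2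
      have h5 := Nat.mul_le_mul (show 2 * (newCs l cs₀).length ≤ 2 * (b.len + 1) by omega) h3
      omega
  rintro it t₃ ⟨i1, i2, i3⟩
  have hG : ∀ j, j < I.n → 4 * (b.Gm * j) + 4 * b.Gm ≤ B := fun j hj => by nlinarith
  refine (Tri.foldM (fun pre (G : Arr ℤ) t => (∀ a, G.get a = (if a ∈ A then 0 else l.G.get a) +
    (pre.map fun v => (if Anc par.get a v then l.G.get v + st.g.get v - l.gs.get v else 0) +
      if Anc par.get a (l.par.get v) then -l.G.get v else 0).sum) ∧
    (∀ a ∈ A, (G.get a).natAbs ≤ 4 * (b.Gm * pre.length)) ∧ t ≤ pre.length * (4 * I.D + 3))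
    ⟨fun a => by simp [foldl_set], fun a ha => by simp [foldl_set, ha], by simp⟩ ?_).mono ?_
  · rintro pre v rest G t e ⟨g1, g2, g3⟩
    have hv : v ∈ A := by simp [e]
    have hpv : l.par.get v ∈ A := (hp.mem _).2 (((hp.mem v).1 hv).up hl.tr)
    have a0 := hG pre.length (by have := hp.len_n hf hl; rw [e] at this; simp at this; omega)
    have a1 := hl.G_abs (hA v hv)
    have a2 := hg.abs_le (hA v hv)
    have a3 : (l.gs.get v).natAbs ≤ b.Gm := (single_le_sum (f := fun v => (l.gs.get v).natAbs)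
      (fun _ _ => Nat.zero_le _) (mem_range.2 (hA v hv))).trans hl.gs_abs
    simp only [Tri_bind, Tri_inum]
    refine ⟨by omega, (addPath_tri ht (hA v hv) fun a ha => ?_).mono ?_⟩
    · have := g2 a (ha.closed hcl' hv)
      show _ ≤ B
      omega
    rintro G₁ s₁ ⟨k1, k2⟩
    refine (addPath_tri ht (hA _ hpv) fun a ha => ?_).mono ?_
    · have := g2 a (ha.closed hcl' hpv)
      rw [k1]
      show _ ≤ B
      split_ifs <;> omega
    rintro G₂ s₂ ⟨k3, k4⟩
    refine ⟨fun a => ?_, fun a ha => ?_, ?_⟩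
    · rw [k3, k1, g1, List.map_append, List.sum_append]
      simp only [List.map_singleton, List.sum_singleton, add_assoc]
    · have := g2 a ha
      rw [k3, k1, List.length_append, List.length_singleton, mul_add, mul_one]
      split_ifs <;> omega
    · simp only [List.length_append, List.length_singleton, add_mul]
      omega
  rintro G t₄ ⟨g1, -, g3⟩
  refine (Tri.setAll (P := fun a z => z = st.y a) (T := fun _ => I.D) _
    fun a ha => readY_tri hf hco (hA a ha)).mono ?_
  rintro ya t₅ ⟨y1, -, y3⟩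
  refine (Tri.setAll (P := fun a z => z = if par.get a = a then st.y a
    else st.y a - st.y (par.get a)) (T := fun _ => 0) _ fun a ha => ?_).mono ?_
  · have a1 := hco.y_abs a (hA a ha)
    have a2 := hco.y_abs _ (hA _ (hcl' a ha))
    simp only [Tri_inum, y1 a ha, y1 _ (hcl' a ha), le_refl, and_self, and_true]
    split_ifs <;> omega
  rintro sg t₆ ⟨s1, s2, s3⟩
  refine ⟨⟨rfl, hpar, fun a ha => ⟨(i1 a ha).1, (i1 a ha).2.1.trans (c1 a _),
    fun e => ((i1 a ha).2.2 e).trans (c1 a fun x => mass e x.2)⟩, i2, g1, rfl,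
    fun a => foldl_mset _ _ _ _, rfl, fun a => ?_⟩, ?_⟩
  · split_ifs with h1 h2
    · exact (s1 a h1).trans (if_pos h2)
    · exact (s1 a h1).trans (if_neg h2)
    · exact s2 a h1
  · have h1 : (A.map fun a => 4 * (acc.get a).length).sum ≤ 4 * (H.length * (2 * (b.len + 1))) := by
      rw [List.sum_map_mul_left]
      refine Nat.mul_le_mul_left _ (le_trans (le_of_eq ?_)
        ((sum_cnt_le hp.nodup (newCs l cs₀) H).trans (Nat.mul_le_mul_left _ (by omega))))
      congr 1
      exact List.map_congr_left fun a _ => by rw [← c1 a fun _ => 1]; simp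
    have h2 : t₂ ≤ H.length * (b.len + 2) := c3.trans (Nat.mul_le_mul_left _ (by omega))
    simp only [sum_map_const, mul_zero] at p3 y3 s3
    nlinarith

end Vale.Agent.P305D
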