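import Vale.Agent.P305D.Defs

/-!
# The dynamic structure: code
-/

namespace Vale.Agent.P305D

open Vale.Agent.P305E Vale.Agent.P305S

/-- The represented fields. -/
def Ins.enc (s : Ins) := (s.n, s.m, s.tl, s.hd, s.c, s.d, s.L, s.K2, s.A1, s.A2, s.Smax)

instance : Rep Ins := Rep.comap Ins.enc

@[fun_prop] theorem Ins.p_n : Pure Ins.n :=
  Pure.of_comap Ins.enc (h := fun p => p.1) (by fun_prop)
@[fun_prop] theorem Ins.p_m : Pure Ins.m :=
  Pure.of_comap Ins.enc (h := fun p => p.2.1) (by fun_prop)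
@[fun_prop] theorem Ins.p_tl : Pure Ins.tl :=
  Pure.of_comap Ins.enc (h := fun p => p.2.2.1) (by fun_prop)
@[fun_prop] theorem Ins.p_hd : Pure Ins.hd :=
  Pure.of_comap Ins.enc (h := fun p => p.2.2.2.1) (by fun_prop)
@[fun_prop] theorem Ins.p_c : Pure Ins.c :=
  Pure.of_comap Ins.enc (h := fun p => p.2.2.2.2.1) (by fun_prop)
@[fun_prop] theorem Ins.p_d : Pure Ins.d :=
  Pure.of_comap Ins.enc (h := fun p => p.2.2.2.2.2.1) (by fun_prop)
@[fun_prop] theorem Ins.p_L : Pure Ins.L :=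
  Pure.of_comap Ins.enc (h := fun p => p.2.2.2.2.2.2.1) (by fun_prop)
@[fun_prop] theorem Ins.p_K2 : Pure Ins.K2 :=
  Pure.of_comap Ins.enc (h := fun p => p.2.2.2.2.2.2.2.1) (by fun_prop)
@[fun_prop] theorem Ins.p_A1 : Pure Ins.A1 :=
  Pure.of_comap Ins.enc (h := fun p => p.2.2.2.2.2.2.2.2.1) (by fun_prop)
@[fun_prop] theorem Ins.p_A2 : Pure Ins.A2 :=
  Pure.of_comap Ins.enc (h := fun p => p.2.2.2.2.2.2.2.2.2.1) (by fun_prop)
@[fun_prop] theorem Ins.p_Smax : Pure Ins.Smax :=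
  Pure.of_comap Ins.enc (h := fun p => p.2.2.2.2.2.2.2.2.2.2) (by fun_prop)
@[fun_prop] theorem Ins.p_mk {α : Type} [Rep α]
    {f0 : α → ℕ} {f1 : α → ℕ} {f2 : α → Arr ℕ} {f3 : α → Arr ℕ} {f4 : α → Arr ℕ} {f5 : α → Arr ℤ} {f6 : α → ℕ} {f7 : α → ℕ} {f8 : α → ℕ} {f9 : α → ℕ} {f10 : α → ℕ} {f11 : α → ℕ} {f12 : α → ℕ}
    (h0 : Pure f0) (h1 : Pure f1) (h2 : Pure f2) (h3 : Pure f3) (h4 : Pure f4) (h5 : Pure f5) (h6 : Pure f6) (h7 : Pure f7) (h8 : Pure f8) (h9 : Pure f9) (h10 : Pure f10) :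
    Pure fun x => Ins.mk (f0 x) (f1 x) (f2 x) (f3 x) (f4 x) (f5 x) (f6 x) (f7 x) (f8 x) (f9 x) (f10 x) (f11 x) (f12 x) :=
  Pure.to_comap Ins.enc (by unfold Ins.enc; fun_prop)

/-- The represented fields. -/
def Lev.enc (s : Lev) := (s.par, s.root, s.it, s.G, s.gs, s.good, s.U)

instance : Rep Lev := Rep.comap Lev.enc

@[fun_prop] theorem Lev.p_par : Pure Lev.par :=
  Pure.of_comap Lev.enc (h := fun p => p.1) (by fun_prop)
@[fun_prop] theorem Lev.p_root : Pure Lev.root :=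
  Pure.of_comap Lev.enc (h := fun p => p.2.1) (by fun_prop)
@[fun_prop] theorem Lev.p_it : Pure Lev.it :=
  Pure.of_comap Lev.enc (h := fun p => p.2.2.1) (by fun_prop)
@[fun_prop] theorem Lev.p_G : Pure Lev.G :=
  Pure.of_comap Lev.enc (h := fun p => p.2.2.2.1) (by fun_prop)
@[fun_prop] theorem Lev.p_gs : Pure Lev.gs :=
  Pure.of_comap Lev.enc (h := fun p => p.2.2.2.2.1) (by fun_prop)
@[fun_prop] theorem Lev.p_good : Pure Lev.good :=
  Pure.of_comap Lev.enc (h := fun p => p.2.2.2.2.2.1) (by fun_prop)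
@[fun_prop] theorem Lev.p_U : Pure Lev.U :=
  Pure.of_comap Lev.enc (h := fun p => p.2.2.2.2.2.2) (by fun_prop)
@[fun_prop] theorem Lev.p_mk {α : Type} [Rep α]
    {f0 : α → Arr ℕ} {f1 : α → ℕ} {f2 : α → Arr Item} {f3 : α → Arr ℤ} {f4 : α → Arr ℤ} {f5 : α → MinArr} {f6 : α → List ℕ}
    (h0 : Pure f0) (h1 : Pure f1) (h2 : Pure f2) (h3 : Pure f3) (h4 : Pure f4) (h5 : Pure f5) (h6 : Pure f6) :
    Pure fun x => Lev.mk (f0 x) (f1 x) (f2 x) (f3 x) (f4 x) (f5 x) (f6 x) :=
  Pure.to_comap Lev.enc (by unfold Lev.enc; fun_prop)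

/-- The represented fields. -/
def St.enc (s : St) := (s.lam, s.sg, s.ss, s.g, s.lv)

instance : Rep St := Rep.comap St.enc

@[fun_prop] theorem St.p_lam : Pure St.lam :=
  Pure.of_comap St.enc (h := fun p => p.1) (by fun_prop)
@[fun_prop] theorem St.p_sg : Pure St.sg :=
  Pure.of_comap St.enc (h := fun p => p.2.1) (by fun_prop)
@[fun_prop] theorem St.p_ss : Pure St.ss :=
  Pure.of_comap St.enc (h := fun p => p.2.2.1) (by fun_prop)
@[fun_prop] theorem St.p_g : Pure St.g :=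
  Pure.of_comap St.enc (h := fun p => p.2.2.2.1) (by fun_prop)
@[fun_prop] theorem St.p_lv : Pure St.lv :=
  Pure.of_comap St.enc (h := fun p => p.2.2.2.2) (by fun_prop)
@[fun_prop] theorem St.p_mk {α : Type} [Rep α]
    {f0 : α → ℕ} {f1 : α → Arr ℤ} {f2 : α → Arr ℕ} {f3 : α → Arr ℤ} {f4 : α → Arr Lev} {f5 : α → ℕ → ℤ}
    (h0 : Pure f0) (h1 : Pure f1) (h2 : Pure f2) (h3 : Pure f3) (h4 : Pure f4) :
    Pure fun x => St.mk (f0 x) (f1 x) (f2 x) (f3 x) (f4 x) (f5 x) :=
  Pure.to_comap St.enc (by unfold St.enc; fun_prop)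

variable {α : Type} [Rep α]

instance : Lit Item.zero :=
  ⟨0, _, _, _, rfl, ⟨rfl, le_rfl⟩, _, rfl, _, _, rfl, ⟨rfl, le_rfl⟩, rfl, le_rfl⟩

@[fun_prop] theorem impl_pairUp : Impl pairUp := by unfold pairUp; fun_prop

@[fun_prop] theorem impl_build : Impl build := by unfold build; fun_prop

@[fun_prop] theorem impl_descM {d : α → ℕ} {t : α → WT} {x : α → ℕ} (ht : Pure t) (hx : Pure x) :
    Impl fun a => descM (d a) (t a) (x a) := by unfold descM; fun_prop

@[fun_prop] theorem impl_pathM {d : α → ℕ} {par : α → Arr ℕ} {v : α → ℕ} (hp : Pure par)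
    (hv : Pure v) : Impl fun a => pathM (d a) (par a) (v a) := by unfold pathM; fun_prop

@[fun_prop] theorem impl_dedupM : Impl dedupM := by unfold dedupM; fun_prop

@[fun_prop] theorem pure_relab {A : α → Arr ℕ} {v : α → ℕ} (hA : Pure A) (hv : Pure v) :
    Pure fun a => relab (A a) (v a) := by unfold relab; fun_prop

@[fun_prop] theorem grow_uOf {I : α → Ins} {s : α → ℕ} (hI : Pure I) (hs : Grow s) :
    Grow fun a => (I a).uOf (s a) := by unfold Ins.uOf; fun_prop

@[fun_prop] theorem grow_clamp {I : α → Ins} {s : α → ℤ} (hI : Pure I) (hs : Grow s) :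
    Grow fun a => (I a).clamp (s a) := by unfold Ins.clamp; fun_prop

@[fun_prop] theorem grow_uu {I : α → Ins} {st : α → St} {e : α → ℕ} (hI : Pure I) (hs : Pure st)
    (he : Pure e) : Grow fun a => (st a).uu (I a) (e a) := by unfold St.uu; fun_prop

@[fun_prop] theorem pure_cap {l : α → Lev} {v : α → ℕ} (hl : Pure l) (hv : Pure v) :
    Pure fun a => (l a).cap (v a) := by unfold Lev.cap; fun_prop

@[fun_prop] theorem pure_top {I : α → Ins} {st : α → St} (hI : Pure I) (hs : Pure st) :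
    Pure fun a => (st a).top (I a) := by unfold St.top; fun_prop

@[fun_prop] theorem pure_cand {I : α → Ins} {st : α → St} (hI : Pure I) (hs : Pure st) :
    Pure fun a => cand (I a) (st a) := by unfold cand; fun_prop

@[fun_prop] theorem impl_readY : Impl fun p : Ins × St × ℕ => readY p.1 p.2.1 p.2.2 := by
  unfold readY; fun_prop

@[fun_prop] theorem impl_move :
    Impl fun p : Ins × St × ℕ × ℤ => move p.1 p.2.1 p.2.2.1 p.2.2.2 := by
  unfold move; fun_prop

@[fun_prop] theorem impl_draw : Impl fun p : Ins × St × ℕ => draw p.1 p.2.1 p.2.2 := by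
  unfold draw; fun_prop

@[fun_prop] theorem impl_addAt {g : α → Arr ℤ} {v : α → ℕ} {x : α → ℤ} (hg : Pure g) (hv : Pure v)
    (hx : Grow x) : Impl fun a => addAt (g a) (v a) (x a) := by unfold addAt; fun_prop

@[fun_prop] theorem pure_push {l : α → Lev} {e : α → ℕ} (hl : Pure l) (he : Pure e) :
    Pure fun a => (l a).push (e a) := by unfold Lev.push; fun_prop

@[fun_prop] theorem impl_refresh : Impl fun p : Ins × St × ℕ => refresh p.1 p.2.1 p.2.2 := by
  unfold refresh; fun_prop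

@[fun_prop] theorem impl_drawN :
    Impl fun p : Ins × St × ℕ × ℕ => drawN p.1 p.2.1 p.2.2.1 p.2.2.2 := by
  unfold drawN; fun_prop

@[fun_prop] theorem impl_refreshAll :
    Impl fun p : Ins × St × List ℕ => refreshAll p.1 p.2.1 p.2.2 := by
  unfold refreshAll; fun_prop

@[fun_prop] theorem impl_setLam : Impl fun p : Ins × St × ℕ => setLam p.1 p.2.1 p.2.2 := by
  unfold setLam; fun_prop

@[fun_prop] theorem pure_baseLev {U : α → List ℕ} (hU : Pure U) : Pure fun a => baseLev (U a) := by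
  unfold baseLev; fun_prop

@[fun_prop] theorem impl_prevLev : Impl fun p : Ins × St × ℕ => prevLev p.1 p.2.1 p.2.2 := by
  unfold prevLev; fun_prop

@[fun_prop] theorem impl_initSt : Impl initSt := by unfold initSt; fun_prop

@[fun_prop] theorem pure_edge : Pure HE.edge := by unfold HE.edge; fun_prop

@[fun_prop] theorem impl_prep : Impl fun p : Ins × St × Lev => prep p.1 p.2.1 p.2.2 := by
  unfold prep; fun_prop

@[fun_prop] theorem impl_collect : Impl fun p : List (Arr ℕ) × List HE => collect p.1 p.2 := by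
  unfold collect; fun_prop

@[fun_prop] theorem impl_addPath {d : α → ℕ} {par : α → Arr ℕ} {G : α → Arr ℤ} {v : α → ℕ}
    {x : α → ℤ} (hp : Pure par) (hG : Pure G) (hv : Pure v) (hx : Pure x) :
    Impl fun a => addPath (d a) (par a) (G a) (v a) (x a) := by unfold addPath; fun_prop

@[fun_prop] theorem impl_finish :
    Impl fun p : Ins × St × Lev × List ℕ × List HE × List (Arr ℕ) =>
      finish p.1 p.2.1 p.2.2.1 p.2.2.2.1 p.2.2.2.2.1 p.2.2.2.2.2 := by
  unfold finish; fun_prop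

@[fun_prop] theorem impl_rebuild {smp : α → List Edge → M (List (Arr ℕ))} {I : α → Ins}
    {st : α → St} {i : α → ℕ} (hs : Impl fun p : α × List Edge => smp p.1 p.2) (hI : Pure I)
    (hst : Pure st) (hi : Pure i) : Impl fun a => rebuild (smp a) (I a) (st a) (i a) := by
  unfold rebuild; fun_prop

end Vale.Agent.P305D
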