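import Vale.Agent.P305D.Step

/-!
# The dynamic structure: the graph for the sampler, and general loop lemmas
-/

namespace Vale.Agent.P305D

open Vale.Agent.P305E Vale.Agent.P305S Finset

variable {I : Ins} {b : Bnd} {B k : ℕ} {st : St} {l : Lev} {cn : Bool}

theorem forall₂_eq_map {α β : Type} {f : α → β} {l : List α} {l' : List β}
    (h : List.Forall₂ (fun x y => y = f x) l l') : l' = l.map f := by
  induction h with
  | nil => rfl
  | cons h _ ih => rw [h, ih]; rfl

theorem forall₂_flatten {α β : Type} {P : α → β → Prop} {T : ℕ} {l : List α} {l' : List (List β)}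
    (h : List.Forall₂ (fun x p => (∀ a, a ∈ p ↔ P x a) ∧ p.length ≤ T) l l') :
    (∀ a, a ∈ l'.flatten ↔ ∃ x ∈ l, P x a) ∧ l'.flatten.length ≤ l.length * T := by
  induction h with
  | nil => simp
  | cons h _ ih =>
    refine ⟨fun a => by simp [h.1, ← ih.1], ?_⟩
    have := h.2
    have := ih.2
    simp only [List.flatten_cons, List.length_append, List.length_cons, add_mul]
    omega

theorem Tri.setAll {γ : Type} {c : Cx} {f : ℕ → M γ} {P : ℕ → γ → Prop} {T : ℕ → ℕ} {A : List ℕ}
    (a₀ : Arr γ) (h : ∀ a ∈ A, Tri c (f a) fun x t => P a x ∧ t ≤ T a) :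
    Tri c (foldM (fun (arr : Arr γ) a => f a >>= fun x => pure (arr.set a x)) a₀ A) fun arr t =>
      (∀ a ∈ A, P a (arr.get a)) ∧ (∀ a, a ∉ A → arr.get a = a₀.get a) ∧
      t ≤ (A.map T).sum + A.length := by
  refine Tri.foldM (fun A (arr : Arr γ) t => (∀ a ∈ A, P a (arr.get a)) ∧
    (∀ a, a ∉ A → arr.get a = a₀.get a) ∧ t ≤ (A.map T).sum + A.length) (by simp) ?_
  rintro pre x rest arr t e ⟨h1, h2, h3⟩
  refine (h x (by simp [e])).bind fun y t' hy => ⟨fun a ha => ?_, fun a ha => ?_, ?_⟩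
  · rw [Arr.get_set]
    split_ifs with h
    · exact h ▸ hy.1
    · exact h1 a (by simpa [h] using ha)
  · simp only [List.mem_append, List.mem_singleton, not_or] at ha
    rw [Arr.get_set_ne _ ha.2, h2 a ha.1]
  · have := hy.2
    simp only [List.map_append, List.sum_append, List.length_append, List.map_singleton,
      List.sum_singleton, List.length_singleton]
    omega

theorem foldl_set {γ : Type} (f : ℕ → γ) (A : List ℕ) (a₀ : Arr γ) (a : ℕ) :
    (A.foldl (fun (arr : Arr γ) a => arr.set a (f a)) a₀).get a =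
      if a ∈ A then f a else a₀.get a := by
  induction A generalizing a₀ with
  | nil => simp
  | cons x A ih =>
    rw [List.foldl_cons, ih, Arr.get_set]
    by_cases h : a = x <;> by_cases h' : a ∈ A <;> simp [h, h']

theorem foldl_mset (f : ℕ → Option Key) (A : List ℕ) (a₀ : MinArr) (a : ℕ) :
    (A.foldl (fun (arr : MinArr) a => arr.set a (f a)) a₀).get a =
      if a ∈ A then f a else a₀.get a := by
  induction A generalizing a₀ with
  | nil => simp
  | cons x A ih =>
    rw [List.foldl_cons, ih, MinArr.get_set]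
    by_cases h : a = x <;> by_cases h' : a ∈ A <;> simp [h, h']

theorem sum_map_const (l : List ℕ) (T : ℕ) : (l.map fun _ => T).sum = l.length * T := by simp

/-- The fresh copy of an arc. -/
def fresh (I : Ins) (st : St) (e : ℕ) : HE :=
  (I.tl.get e, I.hd.get e, st.uu I e, BT.leaf (e, st.uu I e))

/-- The virtual edge at a vertex. -/
def virt (l : Lev) (a : ℕ) : Option HE :=
  if 0 < l.cap a then some (a, l.par.get a, l.it.get a) else none

/-- The result of `prep`. -/
structure PrepOK (I : Ins) (st : St) (l : Lev) (A U : List ℕ) (H : List HE) : Prop where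
  nodup : A.Nodup
  mem : ∀ a, a ∈ A ↔ InA I l a
  len : A.length ≤ l.U.length * (2 * I.D + 2) + 1
  U_nodup : U.Nodup
  U_mem : ∀ e, e ∈ U ↔ e ∈ l.U
  U_len : U.length ≤ l.U.length
  H_eq : H = A.filterMap (virt l) ++ U.map (fresh I st)

theorem LevInv.trD (hf : Fit I b B) (hl : LevInv I b st k l) (hk : k ≤ I.L + 1) :
    Tr I.n l.par.get l.root I.D :=
  hl.tr.mono (by rw [hf.D]; exact Nat.add_le_add_left (Nat.mul_le_mul_right _ hk) _)

theorem prep_tri (hf : Fit I b B) (hl : LevInv I b st k l) (hk : k ≤ I.L + 1) :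
    Tri ⟨B, cn⟩ (prep I st l) fun r t => (∃ U, PrepOK I st l r.1 U r.2) ∧
      t ≤ 16 * (I.D + 1) * (l.U.length + 1) := by
  have hB := hf.B₂
  have ht := hl.trD hf hk
  refine (dedupM_tri l.U).bind ?_
  rintro U _ ⟨u1, u2, u3, rfl⟩
  refine (Tri.mapM' (P := fun e p => (∀ a, a ∈ p ↔ Anc l.par.get a (I.tl.get e) ∨
    Anc l.par.get a (I.hd.get e)) ∧ p.length ≤ 2 * I.D + 2) (T := fun _ => 3 * I.D + 1) ?_).bind ?_
  · intro e he
    have h1 := hf.ends e (hl.U_lt e ((u2 e).1 he))
    refine (pathM_tri ht h1.1).bind fun p t₁ hp => (pathM_tri ht h1.2).bind fun q t₂ hq => ?_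
    simp only [Tri_appendP, List.mem_append, hp.1, hq.1, List.length_append]
    have := hp.2.2
    have := hq.2.2
    exact ⟨⟨by simp, by omega⟩, by omega⟩
  rintro ps t₁ ⟨p1, p2⟩
  obtain ⟨q1, q2⟩ := forall₂_flatten p1
  have q3 := p1.length_eq
  simp only [Tri_bind, Tri_flattenP]
  refine (dedupM_tri _).mono ?_
  rintro A _ ⟨a1, a2, a3, rfl⟩
  simp only [Tri_filterMapP]
  refine (Tri.mapM' (P := fun e h => h = fresh I st e) (T := fun _ => 0) fun e _ => ?_).mono ?_
  · have := uu_le I st e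
    simp only [Tri_bind, Tri_num, Tri_pure]
    exact ⟨by omega, rfl, le_rfl⟩
  rintro H₂ t₂ ⟨h1, h2⟩
  have h3 := List.length_filterMap_le (fun a => if 0 < l.cap a then
    some (a, l.par.get a, l.it.get a) else none) A
  have h4 : U.length * (2 * I.D + 2) ≤ l.U.length * (2 * I.D + 2) := Nat.mul_le_mul_right _ u3
  simp only [Tri_appendP, Tri_pure, List.length_cons, sum_map_const] at *
  refine ⟨⟨U, a1, fun a => ?_, by omega, u1, u2, u3, by rw [forall₂_eq_map h1]; rfl⟩, ?_⟩
  · simp only [a2, List.mem_cons, q1, u2, InA]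
  · have h5 : U.length * (3 * I.D + 1) ≤ l.U.length * (3 * I.D + 1) := Nat.mul_le_mul_right _ u3
    nlinarith

variable {A U : List ℕ} {H : List HE}

theorem InA.lt (hf : Fit I b B) (hl : LevInv I b st k l) {a : ℕ} (h : InA I l a) : a < I.n := by
  rcases h with rfl | ⟨e, he, h⟩
  · exact hl.tr.root_lt
  · have := hf.ends e (hl.U_lt e he)
    exact h.elim (hl.tr.anc_lt this.1) (hl.tr.anc_lt this.2)

theorem InA.up {D : ℕ} (ht : Tr I.n l.par.get l.root D) {a : ℕ} (h : InA I l a) :
    InA I l (l.par.get a) := by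
  rcases h with rfl | ⟨e, he, h⟩
  · exact Or.inl ht.root
  · exact Or.inr ⟨e, he, h.imp Anc.up Anc.up⟩

theorem InA.tl {e : ℕ} (he : e ∈ l.U) : InA I l (I.tl.get e) :=
  Or.inr ⟨e, he, Or.inl (Anc.refl _ _)⟩

theorem InA.hd {e : ℕ} (he : e ∈ l.U) : InA I l (I.hd.get e) :=
  Or.inr ⟨e, he, Or.inr (Anc.refl _ _)⟩

theorem PrepOK.sub (hf : Fit I b B) (hl : LevInv I b st k l) (hp : PrepOK I st l A U H) :
    A.toFinset ⊆ range I.n := fun a ha =>
  mem_range.2 (((hp.mem a).1 (List.mem_toFinset.1 ha)).lt hf hl)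

theorem PrepOK.U_sub (hl : LevInv I b st k l) (hp : PrepOK I st l A U H) :
    U.toFinset ⊆ range I.m := fun e he =>
  mem_range.2 (hl.U_lt e ((hp.U_mem e).1 (List.mem_toFinset.1 he)))

theorem PrepOK.len_n (hf : Fit I b B) (hl : LevInv I b st k l) (hp : PrepOK I st l A U H) :
    A.length ≤ I.n := by
  simpa [List.toFinset_card_of_nodup hp.nodup] using card_le_card (hp.sub hf hl)

theorem PrepOK.H_len (hf : Fit I b B) (hl : LevInv I b st k l) (hp : PrepOK I st l A U H) :
    H.length ≤ A.length + U.length ∧ H.length ≤ I.n + I.m := by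
  have h1 := hp.len_n hf hl
  have h2 : U.length ≤ I.m := by
    simpa [List.toFinset_card_of_nodup hp.U_nodup] using card_le_card (hp.U_sub hl)
  have h3 := List.length_filterMap_le (virt l) A
  rw [hp.H_eq, List.length_append, List.length_map]
  omega

theorem PrepOK.H_mem (hl : LevInv I b st k l) (hp : PrepOK I st l A U H) {h : HE} (hh : h ∈ H) :
    h.1 ∈ A ∧ h.2.1 ∈ A ∧ 1 ≤ h.2.2.1 ∧ IGood (k * b.bw) h.2.2 := by
  rw [hp.H_eq, List.mem_append, List.mem_filterMap, List.mem_map] at hh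
  rcases hh with ⟨a, ha, e⟩ | ⟨e, he, rfl⟩
  · unfold virt at e
    split_ifs at e with h0
    obtain rfl := Option.some.inj e
    exact ⟨ha, (hp.mem _).2 (((hp.mem a).1 ha).up hl.tr), h0, hl.good a⟩
  · have := (hp.U_mem e).1 he
    exact ⟨(hp.mem _).2 (InA.tl this), (hp.mem _).2 (InA.hd this), one_le_uu _ _ _, rfl,
      WGood_leaf _ _⟩

theorem PrepOK.wsum_eq (hp : PrepOK I st l A U H) (h : ℕ → ℕ → ℝ) :
    wsum (H.map HE.edge) h = ∑ a ∈ A.toFinset, (l.cap a : ℝ) * h a (l.par.get a) +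
      ∑ e ∈ U.toFinset, (st.uu I e : ℝ) * h (I.tl.get e) (I.hd.get e) := by
  rw [hp.H_eq, List.map_append, wsum_append, List.sum_toFinset _ hp.nodup,
    List.sum_toFinset _ hp.U_nodup]
  congr 1
  · clear hp
    induction A with
    | nil => simp
    | cons a A ih =>
      rw [List.filterMap_cons, List.map_cons, List.sum_cons, ← ih]
      unfold virt
      split_ifs with h0
      · rfl
      · simp [show l.cap a = 0 by omega]
  · simp only [wsum, List.map_map]
    rfl

theorem PrepOK.wsum_le (hf : Fit I b B) (hl : LevInv I b st k l) (hp : PrepOK I st l A U H)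
    {h : ℕ → ℕ → ℝ} (h0 : ∀ x y, 0 ≤ h x y) : wsum (H.map HE.edge) h ≤
      ∑ a ∈ A.toFinset, (l.cap a : ℝ) * h a (l.par.get a) + wsum (st.arcs I) h := by
  have := hf.n_pos
  rw [hp.wsum_eq, wsum_arcs]
  exact add_le_add_right (sum_le_sum_of_subset_of_nonneg (hp.U_sub hl)
    fun e _ _ => mul_nonneg (Nat.cast_nonneg _) (h0 _ _)) _

theorem cast_sum_w (E : List Edge) : (((E.map fun e => e.2.2).sum : ℕ) : ℝ) = tot E := by
  induction E with
  | nil => simp [tot]
  | cons e E ih => simp only [List.map_cons, List.sum_cons, Nat.cast_add, ih, tot, wsum_cons, mul_one]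

theorem PrepOK.tot_le (hf : Fit I b B) (hl : LevInv I b st k l) (hp : PrepOK I st l A U H) :
    ((H.map HE.edge).map fun e => e.2.2).sum ≤ ∑ a ∈ A.toFinset, l.cap a + I.m * I.Um := by
  have h1 := hp.wsum_le hf hl (h := fun _ _ => 1) fun _ _ => zero_le_one
  have h2 : wsum (st.arcs I) (fun _ _ => 1) ≤ (I.m * I.Um : ℕ) := by
    rw [wsum_arcs]
    refine (sum_le_sum (g := fun _ => (I.Um : ℝ)) fun e _ => ?_).trans (by simp)
    rw [mul_one]
    exact_mod_cast uu_le I st e
  have h3 := cast_sum_w (H.map HE.edge)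
  rw [tot] at h3
  simp only [mul_one] at h1
  exact_mod_cast (h3.le.trans h1).trans (add_le_add_right h2 _)

theorem PrepOK.tot_le' (hf : Fit I b B) (hl : LevInv I b st k l) (hp : PrepOK I st l A U H) :
    ((H.map HE.edge).map fun e => e.2.2).sum ≤ capB I b k :=
  (hp.tot_le hf hl).trans ((Nat.add_le_add_right (sum_le_sum_of_subset (hp.sub hf hl)) _).trans
    hl.tot)

end Vale.Agent.P305D
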