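import Vale.Agent.P305D.Step

/-!
# The dynamic structure: refreshing arcs
-/

namespace Vale.Agent.P305D

open Vale.Agent.P305E Vale.Agent.P305S Finset

variable {I : Ins} {b : Bnd} {B : ℕ} {st : St} {cn : Bool}

theorem InA.push {l : Lev} {v : ℕ} (h : InA I l v) (e : ℕ) : InA I (l.push e) v :=
  h.imp id fun ⟨e', he, h⟩ => ⟨e', List.mem_cons_of_mem _ he, h⟩

theorem Link.push {l l' : Lev} (h : Link I l l') (e : ℕ) : Link I (l.push e) (l'.push e) :=
  ⟨fun v hv => (h.par v hv).imp id fun h => ⟨h.1.push e, h.2.push e⟩, h.root.push e,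
    fun e' he => (List.mem_cons.1 he).elim (fun h => h ▸ List.mem_cons_self)
      fun he => List.mem_cons_of_mem _ (h.sub e' he), h.dom⟩

theorem grad_update (lam : ℕ) {u u' : ℕ → ℕ} {e : ℕ} (he : e < I.m)
    (hu : ∀ e', e' ≠ e → u' e' = u e') (v : ℕ) : I.grad lam u' v = I.grad lam u v +
      (if I.hd.get e = v then (u' e : ℤ) - u e else 0) -
      if I.tl.get e = v then (u' e : ℤ) - u e else 0 := by
  unfold Ins.grad
  rw [← add_sum_erase _ _ (mem_range.2 he), ← add_sum_erase (range I.m) _ (mem_range.2 he),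
    sum_congr rfl fun e' he' => by rw [hu e' (ne_of_mem_erase he')]]
  split_ifs <;> ring

theorem refresh_tri (hf : Fit I b B) (h : Inv I b st) (e : ℕ) :
    Tri ⟨B, cn⟩ (refresh I st e) fun st' t => Inv I b st' ∧ st'.y = st.y ∧ st'.lam = st.lam ∧
      (∀ e', st'.ss.get e' =
        if e' = e ∧ e < I.m then I.clamp (I.slack st.y e) else st.ss.get e') ∧
      (∀ i, i ≤ I.L → st'.T I i = st.T I i ∧ (st'.U i).length ≤ (st.U i).length + 1) ∧
      t ≤ 2 * I.D + I.L + 1 := by
  unfold refresh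
  by_cases he : e < I.m
  swap
  · simp [he, h]
  have hB := hf.B₂
  have hG : b.Gm ≤ 8 * (I.n + 1) * b.Gm := Nat.le_mul_of_pos_left _ (by omega)
  have hG2 : 3 * b.Gm ≤ 8 * (I.n + 1) * b.Gm := Nat.mul_le_mul_right _ (by omega)
  have hU : I.Um ≤ I.m * I.Um := Nat.le_mul_of_pos_left _ (by omega)
  have hl := h.g.lam
  have hends := hf.ends e he
  rw [if_pos he]
  refine (readY_tri hf h.core hends.2).bind ?_
  rintro _ t₁ ⟨rfl, h₁⟩
  refine (readY_tri hf h.core hends.1).bind ?_
  rintro _ t₂ ⟨rfl, h₂⟩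
  set s := I.clamp (I.c.get e - st.y (I.hd.get e) + st.y (I.tl.get e)) with hs
  have a1 := clamp_le hf (I.c.get e - st.y (I.hd.get e) + st.y (I.tl.get e))
  have a2 := uOf_le I s
  have a3 := uu_le I st e
  have a4 := h.g.abs_le hends.1
  have a5 := h.g.abs_le hends.2
  simp only [Tri_bind, Tri_num, Tri_inum, addAt_tri, Tri_pure, Arr.get_set]
  refine ⟨by omega, by omega, by omega, by split_ifs <;> omega, by omega, ?_⟩
  refine (Tri.iterM (fun k (lv : Arr Lev) t =>
    (∀ i, lv.get i = if i < k then (st.lv.get i).push e else st.lv.get i) ∧ k = t)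
    (by simp) ?_).mono ?_
  · rintro k lv _ hk ⟨h1, rfl⟩
    simp only [Tri_pure, Arr.get_set, and_true]
    intro i
    rw [h1 i, h1 k]
    split_ifs <;> first | rfl | omega | simp_all
  rintro lv _ ⟨h1, rfl⟩
  have h2 : ∀ i, i ≤ I.L → lv.get i = (st.lv.get i).push e := fun i hi => by
    rw [h1 i, if_pos (by omega)]
  have huu : ∀ e', e' ≠ e → I.uOf ((st.ss.set e s).get e') = st.uu I e' := fun e' he' => by
    rw [Arr.get_set_ne _ he', St.uu]
  refine ⟨⟨⟨?_, ?_, h.core.y_abs, fun e' => ?_⟩, ⟨fun v hv => ?_, hl⟩, fun i hi => ?_,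
    fun i hi => ?_⟩, trivial, trivial, fun e' => ?_, fun i hi => ?_, by omega⟩
  · simp only [St.top, h2 _ le_rfl]
    exact h.core.tr
  · simp only [St.top, h2 _ le_rfl]
    exact h.core.y_eq
  · simp only [Arr.get_set]
    split_ifs
    · exact a1.1
    · exact h.core.ss e'
  · refine Eq.trans ?_ (grad_update st.lam he huu v).symm
    rw [← h.g.eq v hv]
    simp only [St.uu, Arr.get_set, if_true]
    by_cases k1 : I.tl.get e = v <;> by_cases k2 : I.hd.get e = v
    · simp only [k1, k2, if_true]; ring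
    · simp [k1, k2, Ne.symm k2, sub_eq_add_neg]
    · simp [k1, k2, Ne.symm k1]
    · simp [k1, k2, Ne.symm k1, Ne.symm k2]
  · have hl := h.lev i hi
    simp only [h2 i hi]
    refine ⟨hl.tr, hl.good, hl.tot, fun e' he' => ?_, fun e' he' hn S hS => ?_, hl.G_eq, hl.gs_sum,
      hl.gs_abs, fun v hv hn => ?_, hl.flag⟩
    · exact (List.mem_cons.1 he').elim (fun h => h ▸ he) (hl.U_lt e')
    · have hn' : ¬ (e' = e ∨ e' ∈ (st.lv.get i).U) := fun h => hn (List.mem_cons.2 h)
      obtain ⟨a, k1, k2, k3⟩ := hl.mass e' he' (fun h => hn' (Or.inr h)) S hS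
      exact ⟨a, k1, k2, (huu e' fun h => hn' (Or.inl h)).le.trans k3⟩
    · have k := hn e List.mem_cons_self
      simp only [Arr.get_set, if_neg (Ne.symm k.1), if_neg (Ne.symm k.2)]
      exact hl.gs_eq v hv fun e' he' => hn e' (List.mem_cons_of_mem _ he')
  · simp only [h2 i hi.le, h2 (i + 1) hi]
    exact (h.link i hi).push e
  · simp only [he, and_true]
    rfl
  · simp only [St.T, St.U, h2 i hi]
    exact ⟨rfl, le_rfl⟩

theorem refreshAll_tri (hf : Fit I b B) (h : Inv I b st) (l : List ℕ) :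
    Tri ⟨B, cn⟩ (refreshAll I st l) fun st' t => Inv I b st' ∧ st'.y = st.y ∧ st'.lam = st.lam ∧
      (∀ e, st'.ss.get e =
        if e ∈ l ∧ e < I.m then I.clamp (I.slack st.y e) else st.ss.get e) ∧
      (∀ i, i ≤ I.L → st'.T I i = st.T I i ∧ (st'.U i).length ≤ (st.U i).length + l.length) ∧
      t ≤ l.length * (2 * I.D + I.L + 2) := by
  refine Tri.foldM (fun l st' t => Inv I b st' ∧ st'.y = st.y ∧ st'.lam = st.lam ∧
      (∀ e, st'.ss.get e =
        if e ∈ l ∧ e < I.m then I.clamp (I.slack st.y e) else st.ss.get e) ∧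
      (∀ i, i ≤ I.L → st'.T I i = st.T I i ∧ (st'.U i).length ≤ (st.U i).length + l.length) ∧
      t ≤ l.length * (2 * I.D + I.L + 2)) (by simp [h]) ?_
  rintro pre x rest s t - ⟨h1, h2, h3, h4, h5, h6⟩
  refine (refresh_tri hf h1 x).mono fun s' t' ⟨g1, g2, g3, g4, g5, g6⟩ =>
    ⟨g1, g2.trans h2, g3.trans h3, fun e => ?_, fun i hi => ?_, ?_⟩
  · rw [g4, h4, h2]
    by_cases k1 : e = x
    · subst k1
      by_cases k2 : e < I.m <;> simp [k2]
    · simp [k1]
  · have := (g5 i hi).2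
    have := (h5 i hi).2
    exact ⟨(g5 i hi).1.trans (h5 i hi).1, by simp; omega⟩
  · simp only [List.length_append, List.length_singleton, add_mul]
    omega

end Vale.Agent.P305D
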