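import Vale.Agent.P305D.Finish
import Vale.Agent.P305D.Refresh
import Vale.Agent.P305D.Impl

/-!
# The dynamic structure: rebuilding levels
-/

namespace Vale.Agent.P305D

open Vale.Agent.P305E Vale.Agent.P305S Finset

variable {I : Ins} {b : Bnd} {B k i : ℕ} {st : St} {l : Lev} {cn : Bool}

theorem LevInv.mono (h : LevInv I b st k l) {k' : ℕ} (hk : k ≤ k') : LevInv I b st k' l :=
  ⟨h.tr.mono (Nat.add_le_add_left (Nat.mul_le_mul_right _ hk) _),
    fun a => (h.good a).mono (Nat.mul_le_mul_right _ hk), h.tot.trans (capB_mono I b hk), h.U_lt,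
    h.mass, h.G_eq, h.gs_sum, h.gs_abs, h.gs_eq, h.flag⟩

theorem base_inv (hf : Fit I b B) (st : St) : LevInv I b st 0 (baseLev (List.range I.m)) := by
  refine ⟨(tr_star hf.n_pos).mono (by omega), fun _ => IGood_zero _, ?_,
    fun e he => List.mem_range.1 he, fun e he hn => absurd (List.mem_range.2 he) hn,
    fun a _ => (sum_eq_zero fun v _ => ite_self _).symm,
    by simp [baseLev], by simp [baseLev], fun v hv hn => ?_,
    fun a => by simp [baseLev]⟩
  · simp [baseLev, Lev.cap, Item.zero, capB]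
  · obtain ⟨e, he, h⟩ := hf.cover v hv
    have := hn e (List.mem_range.2 he)
    tauto

theorem Link.inA (hf : Fit I b B) {l' : Lev} {k' : ℕ} (h : Link I l l') (hl : LevInv I b st k l)
    (hl' : LevInv I b st k' l') {v : ℕ} (hv : InA I l' v) : InA I l v := by
  have key : ∀ x, x < I.n → InA I l x → Anc l'.par.get v x → InA I l v := fun x hx h1 h2 =>
    (h2.closed (P := fun w => w < I.n ∧ InA I l w) (fun w hw => ⟨hl'.tr.lt w hw.1,
      (h.par w hw.1).elim (fun e => e ▸ hw.2.up hl.tr) fun e => e.2⟩) ⟨hx, h1⟩).2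
  rcases hv with rfl | ⟨e, he, hv⟩
  · exact h.root
  · have := hf.ends e (hl'.U_lt e he)
    exact hv.elim (key _ this.1 (InA.tl (h.sub e he))) (key _ this.2 (InA.hd (h.sub e he)))

theorem Inv.hang (hf : Fit I b B) (h : Inv I b st) {j v : ℕ} (hj : j ≤ I.L) (hv : v < I.n)
    (hn : ¬ InA I (st.lv.get j) v) : (st.top I).par.get v = (st.lv.get j).par.get v := by
  induction hj using Nat.decreasingInduction with
  | self => rfl
  | of_succ j hj ih =>
    rw [ih fun h' => hn ((h.link j hj).inA hf (h.lev j hj.le) (h.lev (j + 1) hj) h')]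
    exact ((h.link j hj).par v hv).resolve_right fun h' => hn h'.1

/-- The level on which level `i` is built. -/
structure PrevOK (I : Ins) (b : Bnd) (st : St) (i : ℕ) (l : Lev) : Prop where
  inv : LevInv I b st i l
  hang : ∀ v, v < I.n → ¬ InA I l v → (st.top I).par.get v = l.par.get v
  len : l.U.length = if i = 0 then I.m else (st.U (i - 1)).length
  eq : i ≠ 0 → l = st.lv.get (i - 1)
  nrm : ∀ ψ, nrm (l.T I.n) ψ = if i = 0 then 0 else nrm (st.T I (i - 1)) ψ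

theorem prevLev_tri (hf : Fit I b B) (hi : i ≤ I.L) (h : i = 0 ∨ Inv I b st) :
    Tri ⟨B, cn⟩ (prevLev I st i) fun l t => PrevOK I b st i l ∧ t ≤ l.U.length := by
  unfold prevLev
  split_ifs with h0
  · subst h0
    simp only [Tri_bind, Tri_rangeP, Tri_pure]
    refine ⟨⟨base_inv hf st, fun v hv hn => ?_, by simp [baseLev], by simp, fun ψ => ?_⟩,
      by simp [baseLev]⟩
    · obtain ⟨e, he, h⟩ := hf.cover v hv
      exact absurd (h.elim (fun h => h ▸ InA.tl (List.mem_range.2 he))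
        fun h => h ▸ InA.hd (List.mem_range.2 he)) hn
    · simp [P305S.nrm, wsum_T, baseLev, Lev.cap, Item.zero]
  · have h := h.resolve_left h0
    have h1 := h.lev (i - 1) (by omega)
    rw [Nat.sub_add_cancel (by omega)] at h1
    exact ⟨⟨h1, fun v hv hn => h.hang hf (by omega) hv hn, by simp [h0, St.U], fun _ => rfl,
      fun ψ => by simp [h0, St.T]⟩, Nat.zero_le _⟩

theorem Link.self {l : Lev} (hU : l.U = []) : Link I l l :=
  ⟨fun _ _ => Or.inl rfl, Or.inl rfl, by simp [hU], fun _ => le_rfl⟩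

/-- What a rebuild of the levels `i, …, L` achieves. -/
structure RebOK (I : Ins) (b : Bnd) (st : St) (i : ℕ) (st' : St) : Prop where
  inv : Inv I b st'
  y : st'.y = st.y
  ss : st'.ss = st.ss
  lam : st'.lam = st.lam
  low : ∀ j, j < i → st'.lv.get j = st.lv.get j
  high : ∀ j, i ≤ j → j ≤ I.L → st'.T I j = st'.T I i ∧ st'.U j = []

theorem tail_tri (hf : Fit I b B) (hi : i ≤ I.L) (hco : Core I b st) (hg : GInv I b st)
    (h : i = 0 ∨ Inv I b st) (hl : PrevOK I b st i l) {A U : List ℕ} {H : List HE}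
    {cs₀ : List (Arr ℕ)} (hp : PrepOK I st l A U H) (hc : CsOK b H cs₀) :
    Tri ⟨B, cn⟩ (finish I st l A H cs₀ >>= fun r => num (I.L + 1) >>= fun k =>
      iterM (fun lv j => pure (if i ≤ j then lv.set j r.1 else lv)) st.lv k >>= fun lv =>
        pure (⟨st.lam, r.2, st.ss, st.g, lv, st.y⟩ : St)) fun st' t => RebOK I b st i st' ∧
      (∃ sg, FinOK I b st i l A H cs₀ (st'.lv.get i) sg) ∧
      t ≤ 2 * b.len + A.length * (b.len + 5 * I.D + 12) + H.length * (9 * b.len + 10) +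
        (I.L + 1) := by
  have hB := hf.B₂
  refine (finish_tri hf hco hg hl.inv hi hp hc).bind ?_
  rintro ⟨l', sg⟩ t ⟨hn, ht⟩
  simp only [Tri_bind, Tri_num, Tri_pure] at hn ⊢
  refine ⟨by omega, (Tri.iterM (fun k (lv : Arr Lev) t =>
    (∀ j, lv.get j = if i ≤ j ∧ j < k then l' else st.lv.get j) ∧ k = t) (by simp) ?_).mono ?_⟩
  · rintro k lv _ hk ⟨h1, rfl⟩
    simp only [Tri_pure, and_true]
    intro j
    by_cases h2 : i ≤ k
    · rw [if_pos h2, Arr.get_set, h1]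
      split_ifs <;> first | rfl | omega
    · rw [if_neg h2, h1]
      split_ifs <;> first | rfl | omega
  rintro lv _ ⟨h1, rfl⟩
  have h2 : ∀ j, i ≤ j → j ≤ I.L → lv.get j = l' := fun j k1 k2 => by
    rw [h1, if_pos ⟨k1, by omega⟩]
  have h3 : ∀ j, j < i → lv.get j = st.lv.get j := fun j k1 => by rw [h1, if_neg (by omega)]
  have h4 := hn.levInv hf hg hl.inv hp hc
  refine ⟨⟨⟨⟨?_, fun v hv => ?_, hco.y_abs, hco.ss⟩, ⟨hg.eq, hg.lam⟩, fun j hj => ?_,
    fun j hj => ?_⟩, rfl, rfl, rfl, h3, fun j k1 k2 => ?_⟩, ⟨sg, ?_⟩, by omega⟩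
  · simp only [St.top, h2 _ hi le_rfl]
    exact h4.trD hf (by omega)
  · simp only [St.top, h2 _ hi le_rfl, hn.sg]
    by_cases hv' : v ∈ A
    · rw [if_pos hv']
      split_ifs <;> ring
    · rw [if_neg hv', hn.par, if_neg hv', ← hl.hang v hv fun h => hv' ((hp.mem v).2 h)]
      exact hco.y_eq v hv
  · by_cases hj' : j < i
    · simp only [h3 j hj']
      exact ((h.resolve_left (by omega)).lev j hj).congr rfl rfl
    · simp only [h2 j (by omega) hj]
      exact (h4.mono (by omega)).congr rfl rfl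
  · by_cases k1 : j + 1 < i
    · simp only [h3 j (by omega), h3 _ k1]
      exact (h.resolve_left (by omega)).link j hj
    · by_cases k2 : j < i
      · simp only [h3 j k2, h2 (j + 1) (by omega) hj]
        have := hl.eq (by omega)
        rw [show i - 1 = j by omega] at this
        exact this ▸ hn.link hf hl.inv hp hc
      · simp only [h2 j (by omega) hj.le, h2 (j + 1) (by omega) hj]
        exact Link.self hn.U
  · simp only [St.T, St.U, h2 j k1 k2, h2 i le_rfl hi, hn.U, and_self]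
  · simp only [h2 i le_rfl hi]
    exact hn

/-- The price of a rebuild, per refreshed arc. -/
def Cr (I : Ins) (b : Bnd) (Cs : ℕ) : ℕ := 64 * (I.D + 1) * (Cs + I.D + b.len + I.L + 1)

variable {Cs : ℕ} {Q Osc : ℝ} {smp : List Edge → M (List (Arr ℕ))}

theorem smp_pre (hf : Fit I b B) (hi : i ≤ I.L) (hl : LevInv I b st i l) {A U : List ℕ}
    {H : List HE} (hp : PrepOK I st l A U H) : (H.map HE.edge).length ≤ I.n + I.m ∧
    (∀ e ∈ H.map HE.edge, e.1 < I.n ∧ e.2.1 < I.n ∧ 1 ≤ e.2.2) ∧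
    ((H.map HE.edge).map fun e => e.2.2).sum ≤ capB I b I.L := by
  refine ⟨by simpa using (hp.H_len hf hl).2, fun e he => ?_,
    (hp.tot_le' hf hl).trans (capB_mono I b hi)⟩
  obtain ⟨h, hh, rfl⟩ := List.mem_map.1 he
  have := hp.H_mem hl hh
  exact ⟨((hp.mem _).1 this.1).lt hf hl, ((hp.mem _).1 this.2.1).lt hf hl, this.2.2.1⟩

theorem cost_arith {a h u u' D len L Cs t₀ t₁ t₂ t₃ : ℕ} (hD : 0 < D)
    (a1 : a ≤ u * (2 * D + 2) + 1)
    (a2 : h ≤ a + u') (a3 : u' ≤ u) (h₀ : t₀ ≤ u) (h₁ : t₁ ≤ 16 * (D + 1) * (u + 1))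
    (h₂ : t₂ ≤ Cs * (h + 1))
    (h₃ : t₃ ≤ 2 * len + a * (len + 5 * D + 12) + h * (9 * len + 10) + (L + 1)) :
    t₀ + (t₁ + (h + (t₂ + t₃))) ≤ 64 * (D + 1) * (Cs + D + len + L + 1) * (u + 1) := by
  have a4 : a ≤ 2 * ((D + 1) * (u + 1)) := by nlinarith
  have a5 : h + 1 ≤ 3 * ((D + 1) * (u + 1)) := by nlinarith
  have a6 : u + 1 ≤ (D + 1) * (u + 1) := Nat.le_mul_of_pos_left _ (by omega)
  have e : 64 * (D + 1) * (Cs + D + len + L + 1) * (u + 1) =
      64 * (Cs + D + len + L + 1) * ((D + 1) * (u + 1)) := by ring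
  rw [e]
  rw [mul_assoc] at h₁
  generalize (D + 1) * (u + 1) = X at *
  have a7 := Nat.mul_le_mul_left Cs a5
  have a8 := Nat.mul_le_mul_right (len + 5 * D + 12) a4
  have a9 := Nat.mul_le_mul_right (9 * len + 10) (show h ≤ 3 * X by omega)
  have a10 : 2 * len + (L + 1) ≤ (2 * len + (L + 1)) * X := Nat.le_mul_of_pos_right _ (by omega)
  have a11 : t₀ + (t₁ + (h + (t₂ + t₃))) ≤ X + 16 * X + 3 * X + Cs * (3 * X) +
      (2 * len + (L + 1)) * X + 2 * X * (len + 5 * D + 12) + 3 * X * (9 * len + 10) := by omega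
  refine a11.trans ?_
  have a12 : X ≤ D * X := Nat.le_mul_of_pos_left _ hD
  nlinarith [Nat.zero_le (Cs * X), Nat.zero_le (len * X), Nat.zero_le (L * X)]

theorem rebuild_tri (hf : Fit I b B)
    (hs : Smp B I.n (I.n + I.m) (capB I b I.L) b.len Cs Q Osc smp) (hi : i ≤ I.L)
    (hco : Core I b st) (hg : GInv I b st) (h : i = 0 ∨ Inv I b st) :
    Tri ⟨B, true⟩ (rebuild smp I st i) fun st' t => RebOK I b st i st' ∧
      t ≤ Cr I b Cs * ((if i = 0 then I.m else (st.U (i - 1)).length) + 1) := by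
  refine (prevLev_tri hf hi h).bind ?_
  rintro l t₀ ⟨hl, h₀⟩
  refine (prep_tri hf hl.inv (by omega)).bind ?_
  rintro ⟨A, H⟩ t₁ ⟨⟨U, hp⟩, h₁⟩
  obtain ⟨k1, k2, k3⟩ := smp_pre hf hi hl.inv hp
  rw [Tri_bind, Tri_mapP]
  refine (hs.tri _ k1 k2 k3).bind ?_
  rintro cs t₂ ⟨c1, c2, c3, h₂⟩
  refine (tail_tri hf hi hco hg h hl hp ⟨c1, c2, c3⟩).mono ?_
  rintro st' t₃ ⟨r1, -, h₃⟩
  refine ⟨r1, ?_⟩
  rw [← hl.len]
  have a1 := hp.len
  have a2 := (hp.H_len hf hl.inv).1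
  have a3 := hp.U_len
  simp only [List.length_map] at *
  exact cost_arith (by rw [hf.D]; omega) a1 a2 a3 h₀ h₁ h₂ h₃

theorem wp_bind_det {α β : Type} {m : M α} {f : α → M β} {P : α → ℕ → Prop} {F : β → ℕ → ℝ}
    {p x : ℝ} (h : Tri ⟨B, cn⟩ m P)
    (hf : ∀ a t, P a t → wp B (f a) (fun b t' => F b (t + t')) p ≤ x) : wp B (m >>= f) F p ≤ x := by
  rw [wp_bind]
  exact wp_le_const_of_Tri h hf p

theorem rebuild_wp (hf : Fit I b B)
    (hs : Smp B I.n (I.n + I.m) (capB I b I.L) b.len Cs Q Osc smp) (hQ : 1 ≤ Q) (hi : i ≤ I.L)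
    (hco : Core I b st) (hg : GInv I b st) (h : i = 0 ∨ Inv I b st) {ψ : ℕ → ℝ}
    (hψ : ∀ a a', |ψ a - ψ a'| ≤ Osc) (p : ℝ) :
    wp B (rebuild smp I st i) (fun st' _ => nrm (st'.T I i) ψ) p ≤
      Q * ((if i = 0 then 0 else nrm (st.T I (i - 1)) ψ) + nrm (st.arcs I) ψ) + 1 := by
  refine wp_bind_det (prevLev_tri (cn := true) hf hi h) ?_
  rintro l t₀ ⟨hl, -⟩
  refine wp_bind_det (prep_tri (cn := true) hf hl.inv (by omega)) ?_
  rintro ⟨A, H⟩ t₁ ⟨⟨U, hp⟩, -⟩
  obtain ⟨k1, k2, k3⟩ := smp_pre hf hi hl.inv hp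
  rw [wp_bind, wp_mapP, wp_bind]
  set x := ∑ a ∈ range I.n \ A.toFinset, (l.cap a : ℝ) * |ψ a - ψ (l.par.get a)| with hx
  refine (wp_le_of_Tri (hs.tri _ k1 k2 k3)
    (G := fun cs _ => TN Osc ψ (hier cs) (H.map HE.edge) + x) ?_ p (0 + x)).trans ?_
  · rintro cs t₂ ⟨c1, c2, c3, -⟩
    refine wp_le_const_of_Tri (tail_tri (cn := true) hf hi hco hg h hl hp ⟨c1, c2, c3⟩) ?_ p
    rintro st' t₃ ⟨-, ⟨sg, hn⟩, -⟩
    exact hn.nrm_le hf hl.inv hp ⟨c1, c2, c3⟩ hψ
  · rw [wp_add_const]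
    have h1 := hs.exp _ k1 k2 k3 ψ hψ 0
    have h2 := hp.wsum_le hf hl.inv (h := fun x y => |ψ x - ψ y|) fun _ _ => abs_nonneg _
    have h3 := hl.nrm ψ
    rw [nrm, wsum_T, ← sum_sdiff (hp.sub hf hl.inv), ← hx] at h3
    have h4 : 0 ≤ x := sum_nonneg fun a _ => mul_nonneg (Nat.cast_nonneg _) (abs_nonneg _)
    rw [← h3]
    have h5 := mul_le_mul_of_nonneg_left h2 (zero_le_one.trans hQ)
    simp only [nrm] at *
    nlinarith

end Vale.Agent.P305D
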