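import Vale.Agent.P305D.Defs

/-!
# The dynamic structure: rooted trees and hierarchies
-/

namespace Vale.Agent.P305D

open Vale.Agent.P305E Vale.Agent.P305S Finset

variable {c : Cx} {n r D : ℕ} {par : ℕ → ℕ}

theorem Anc.refl (par : ℕ → ℕ) (a : ℕ) : Anc par a a := ⟨0, rfl⟩

theorem Anc.step {a v : ℕ} (h : Anc par a (par v)) : Anc par a v :=
  let ⟨k, hk⟩ := h; ⟨k + 1, hk⟩

theorem anc_iff {a v : ℕ} : Anc par a v ↔ v = a ∨ Anc par a (par v) := by
  refine ⟨fun ⟨k, hk⟩ => ?_, fun h => h.elim (fun e => e ▸ Anc.refl _ _) Anc.step⟩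
  cases k with
  | zero => exact Or.inl hk
  | succ k => exact Or.inr ⟨k, hk⟩

theorem Anc.up {a v : ℕ} (h : Anc par a v) : Anc par (par a) v :=
  let ⟨k, hk⟩ := h; ⟨k + 1, by rw [Function.iterate_succ_apply', hk]⟩

/-- A set that is closed under `par` contains all ancestors of its points. -/
theorem Anc.closed {P : ℕ → Prop} (hP : ∀ v, P v → P (par v)) {a v : ℕ} (h : Anc par a v)
    (hv : P v) : P a := by
  obtain ⟨k, rfl⟩ := h
  induction k with
  | zero => exact hv
  | succ k ih => rw [Function.iterate_succ_apply']; exact hP _ ih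

theorem Tr.mono (h : Tr n par r D) {D' : ℕ} (hD : D ≤ D') : Tr n par r D' :=
  let ⟨dep, hd⟩ := h.dep
  ⟨h.root_lt, h.root, h.lt, dep, fun v hv => ⟨(hd v hv).1.trans hD, (hd v hv).2⟩⟩

theorem Tr.anc_lt (h : Tr n par r D) {a v : ℕ} (hv : v < n) (ha : Anc par a v) : a < n :=
  ha.closed h.lt hv

theorem Tr.fix_iff (h : Tr n par r D) {v : ℕ} (hv : v < n) : par v = v ↔ v = r := by
  obtain ⟨dep, hd⟩ := h.dep
  refine ⟨fun e => ?_, fun e => e ▸ h.root⟩
  by_contra hn
  have := (hd v hv).2 hn
  rw [e] at this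
  omega

theorem Tr.ind (h : Tr n par r D) {P : ℕ → Prop} (h0 : P r)
    (hs : ∀ v, v < n → v ≠ r → P (par v) → P v) : ∀ v, v < n → P v := by
  obtain ⟨dep, hd⟩ := h.dep
  have : ∀ k v, v < n → dep v < k → P v := by
    intro k
    induction k with
    | zero => intro v _ h; omega
    | succ k ih =>
      intro v hv hk
      by_cases e : v = r
      · exact e ▸ h0
      · exact hs v hv e (ih _ (h.lt v hv) (by have := (hd v hv).2 e; omega))
  exact fun v hv => this _ v hv (Nat.lt_succ_self _)

theorem Tr.anc_root (h : Tr n par r D) : ∀ v, v < n → Anc par r v :=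
  h.ind (Anc.refl _ _) fun _ _ _ h => h.step

theorem Tr.anc_of_root (h : Tr n par r D) {a : ℕ} (ha : Anc par a r) : a = r :=
  ha.closed (P := fun v => v = r) (fun _ e => e ▸ h.root) rfl

theorem Tr.not_anc_par (h : Tr n par r D) {v : ℕ} (hv : v < n) (hr : v ≠ r) :
    ¬ Anc par v (par v) := by
  obtain ⟨dep, hd⟩ := h.dep
  intro ha
  have := ha.closed (P := fun u => u < n ∧ dep u < dep v) (fun u hu => ⟨h.lt u hu.1, by
    by_cases e : u = r
    · rw [e, h.root, ← e]; exact hu.2
    · exact ((hd u hu.1).2 e).trans hu.2⟩) ⟨h.lt v hv, (hd v hv).2 hr⟩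
  omega

/-- Only the tree edge at `a` leaves the subtree of `a`. -/
theorem sep_sub {a b : ℕ} (hb : ¬ (Anc par a b ↔ Anc par a (par b))) : b = a := by
  by_contra hn
  exact hb ⟨fun h => (anc_iff.1 h).resolve_left hn, Anc.step⟩

open Classical in
theorem Tr.tele {G : Type*} [AddCommGroup G] (h : Tr n par r D) (φ : ℕ → G) :
    ∀ v, v < n → φ v = φ r + ∑ a ∈ range n, if Anc par a v then φ a - φ (par a) else 0 := by
  refine h.ind ?_ fun v hv hr ih => ?_
  · rw [sum_eq_zero, add_zero]
    intro a _
    split_ifs with ha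
    · rw [h.anc_of_root ha, h.root, sub_self]
    · rfl
  · have : ∀ a ∈ range n, (if Anc par a v then φ a - φ (par a) else 0) =
        (if Anc par a (par v) then φ a - φ (par a) else 0) +
          if a = v then φ v - φ (par v) else 0 := by
      intro a _
      by_cases e : a = v
      · subst e
        simp [Anc.refl, h.not_anc_par hv hr]
      · have : Anc par a v ↔ Anc par a (par v) := by rw [anc_iff]; simp [Ne.symm e]
        simp [e, this]
    rw [sum_congr rfl this, sum_add_distrib, ← add_assoc, ← ih]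
    simp [hv]

open Classical in
/-- A linear form with sum zero, in terms of the sums over subtrees. -/
theorem Tr.sum_mul {R : Type*} [CommRing R] (h : Tr n par r D) (g φ : ℕ → R)
    (hg : ∑ v ∈ range n, g v = 0) : ∑ v ∈ range n, g v * φ v =
      ∑ a ∈ range n, (∑ v ∈ range n, if Anc par a v then g v else 0) * (φ a - φ (par a)) := by
  have : ∀ v ∈ range n, g v * φ v = g v * φ r +
      ∑ a ∈ range n, (if Anc par a v then g v else 0) * (φ a - φ (par a)) := by
    intro v hv
    rw [h.tele φ v (mem_range.1 hv), mul_add, mul_sum]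
    congr 1
    refine sum_congr rfl fun a _ => ?_
    split_ifs <;> simp
  rw [sum_congr rfl this, sum_add_distrib, ← Finset.sum_mul (range n) g (φ r), hg, zero_mul, zero_add,
    sum_comm]
  exact sum_congr rfl fun a _ => (Finset.sum_mul _ _ _).symm

theorem pathM_tri {par : Arr ℕ} (h : Tr n par.get r D) {v : ℕ} (hv : v < n) :
    Tri c (pathM D par v) fun l t => (∀ a, a ∈ l ↔ Anc par.get a v) ∧ l.Nodup ∧
      l.length ≤ D + 1 ∧ t ≤ D := by
  obtain ⟨dep, hd⟩ := h.dep
  refine Tri.loopM (fun s t => s.1 < n ∧ (∀ a, Anc par.get a v ↔ a ∈ s.2 ∨ Anc par.get a s.1) ∧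
    (∀ a ∈ s.2, dep s.1 < dep a) ∧ s.2.Nodup ∧ s.2.length = t ∧ t + dep s.1 ≤ D)
    (fun s => dep s.1) ?_ ⟨hv, by simp, by simp, by simp, rfl, by simpa using (hd v hv).1⟩
    (Nat.lt_succ_of_le (hd v hv).1)
  rintro ⟨u, acc⟩ t ⟨h1, h2, h3, h4, h5, h6⟩
  simp only [Tri_ite, Tri_pure, Sum.elim_inl, Sum.elim_inr] at *
  have hn : u ∉ acc := fun hu => lt_irrefl _ (h3 u hu)
  refine ⟨fun e => ⟨fun a => ?_, List.nodup_cons.2 ⟨hn, h4⟩, by simp; omega, by omega⟩,
    fun e => ?_⟩
  · rw [h2, List.mem_cons, or_comm]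
    refine or_congr_right ⟨fun e' => e' ▸ Anc.refl _ _, fun ha => ?_⟩
    exact ha.closed (P := fun w => w = u) (fun w hw => hw ▸ e) rfl
  · have hr : u ≠ r := fun e' => e ((h.fix_iff h1).2 e')
    have := (hd u h1).2 hr
    refine ⟨⟨h.lt u h1, fun a => ?_, fun a ha => ?_, List.nodup_cons.2 ⟨hn, h4⟩, by simp [h5],
      by omega⟩, this⟩
    · rw [h2, List.mem_cons, anc_iff (v := u), eq_comm (a := u)]
      tauto
    · rcases List.mem_cons.1 ha with rfl | ha
      · exact this
      · exact this.trans (h3 a ha)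

theorem dedupM_tri (l : List ℕ) : Tri c (dedupM l) fun l' t => l'.Nodup ∧ (∀ x, x ∈ l' ↔ x ∈ l) ∧
    l'.length ≤ l.length ∧ t = l.length := by
  simp only [dedupM, Tri_bind, Tri_foldP, Tri_pure, add_zero, and_true]
  have : ∀ (l : List ℕ) (s : List ℕ × Arr Bool), s.1.Nodup → (∀ x, s.2.get x = true ↔ x ∈ s.1) →
      let s' := l.foldl (fun (s : List ℕ × Arr Bool) x => if s.2.get x = true then s else
        (x :: s.1, s.2.set x true)) s
      s'.1.Nodup ∧ (∀ x, x ∈ s'.1 ↔ x ∈ s.1 ∨ x ∈ l) ∧ s'.1.length ≤ s.1.length + l.length := by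
    intro l
    induction l with
    | nil => intro s h1 _; simp [h1]
    | cons x l ih =>
      intro s h1 h2
      simp only [List.foldl_cons]
      split_ifs with hx
      · obtain ⟨a1, a2, a3⟩ := ih s h1 h2
        refine ⟨a1, fun y => ?_, by simp; omega⟩
        rw [a2, List.mem_cons]
        have := (h2 x).1 hx
        constructor
        · tauto
        · rintro (h | rfl | h) <;> tauto
      · obtain ⟨a1, a2, a3⟩ := ih (x :: s.1, s.2.set x true)
          (List.nodup_cons.2 ⟨fun h => hx ((h2 x).2 h), h1⟩) (fun y => by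
            simp only [Arr.get_set, List.mem_cons, ← h2]
            split_ifs with e <;> simp [e])
        refine ⟨a1, fun y => ?_, by simp at a3 ⊢; omega⟩
        rw [a2]
        simp only [List.mem_cons]
        tauto
  simpa using this l ([], Arr.const false) (by simp) (by simp)

/-! ### Hierarchies -/

/-- `a` is fixed by all maps. -/
def Fix (cs : List (ℕ → ℕ)) (a : ℕ) : Prop := ∀ c ∈ cs, c a = a

theorem Fix.labAll {cs : List (ℕ → ℕ)} {a : ℕ} (h : Fix cs a) : labAll cs a = a := by
  induction cs with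
  | nil => rfl
  | cons c cs ih =>
    rw [P305S.labAll, h c (by simp)]
    exact ih fun c' hc => h c' (by simp [hc])

theorem Fix.firstMove {pre : List (ℕ → ℕ)} {a : ℕ} (h : Fix pre a) (cs : List (ℕ → ℕ)) :
    firstMove (pre ++ cs) a = firstMove cs a := by
  induction pre with
  | nil => rfl
  | cons c pre ih =>
    rw [List.cons_append, P305D.firstMove, if_pos (h c (by simp))]
    exact ih fun c' hc => h c' (by simp [hc])

theorem Her.fix {pre cs : List (ℕ → ℕ)} {c : ℕ → ℕ} (h : Her (pre ++ c :: cs)) {a : ℕ}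
    (ha : Fix pre a) : Fix (pre ++ [c]) (c a) := by
  have := h (pre.length + 1) a
  rw [show (pre ++ c :: cs).take (pre.length + 1) = pre ++ [c] by simp [List.take_append],
    labAll_append, ha.labAll] at this
  exact this

theorem firstMove_eq {cs : List (ℕ → ℕ)} {a : ℕ} : firstMove cs a = a ↔ Fix cs a := by
  induction cs with
  | nil => simp [firstMove, Fix]
  | cons c cs ih =>
    rw [firstMove]
    split_ifs with h
    · rw [ih]; simp [Fix, h]
    · simp [Fix, h]

theorem firstMove_mem {P : ℕ → Prop} {cs : List (ℕ → ℕ)} (hP : ∀ c ∈ cs, ∀ v, P v → P (c v))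
    {a : ℕ} (ha : P a) : P (firstMove cs a) := by
  induction cs with
  | nil => exact ha
  | cons c cs ih =>
    rw [firstMove]
    split_ifs
    · exact ih fun c' hc => hP c' (by simp [hc])
    · exact hP c (by simp) a ha

theorem foldl_firstMove (cs : List (Arr ℕ)) (a : ℕ) :
    cs.foldl (fun v c => if v = a then relab c a else v) a = firstMove (hier cs) a := by
  have key : ∀ (cs : List (Arr ℕ)) b, b ≠ a →
      cs.foldl (fun v c => if v = a then relab c a else v) b = b := by
    intro cs b hb
    induction cs with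
    | nil => rfl
    | cons c cs ih => simp only [List.foldl_cons, if_neg hb]; exact ih
  induction cs with
  | nil => rfl
  | cons c cs ih =>
    simp only [List.foldl_cons, if_true, hier, List.map_cons, firstMove]
    split_ifs with h
    · rw [h]; exact ih
    · exact key _ _ h

theorem foldl_relab (cs : List (Arr ℕ)) (a : ℕ) :
    cs.foldl (fun v c => relab c v) a = labAll (hier cs) a := by
  induction cs generalizing a with
  | nil => rfl
  | cons c cs ih => exact ih _

/-- The number of maps from the first one that moves `a` on. -/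
def rem : List (ℕ → ℕ) → ℕ → ℕ
  | [], _ => 0
  | c :: cs, a => if c a = a then rem cs a else cs.length + 1

theorem rem_le (cs : List (ℕ → ℕ)) (a : ℕ) : rem cs a ≤ cs.length := by
  induction cs with
  | nil => exact le_rfl
  | cons c cs ih => rw [rem, List.length_cons]; split_ifs <;> omega

theorem rem_firstMove {a : ℕ} : ∀ {cs pre : List (ℕ → ℕ)}, Her (pre ++ cs) → Fix pre a →
    firstMove cs a ≠ a → Fix pre (firstMove cs a) ∧ rem cs (firstMove cs a) < rem cs a
  | [], _, _, _, h => absurd rfl h
  | c :: cs, pre, hH, ha, h => by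
    have hf := hH.fix ha
    rw [firstMove] at h ⊢
    by_cases hc : c a = a
    · rw [if_pos hc] at h ⊢
      rw [hc] at hf
      obtain ⟨h1, h2⟩ := rem_firstMove (pre := pre ++ [c]) (by simpa using hH) hf h
      refine ⟨fun c' hc' => h1 c' (by simp [hc']), ?_⟩
      rwa [rem, rem, if_pos hc, if_pos (h1 c (by simp))]
    · rw [if_neg hc]
      refine ⟨fun c' hc' => hf c' (by simp [hc']), ?_⟩
      rw [rem, rem, if_neg hc, if_pos (hf c (by simp))]
      exact Nat.lt_succ_of_le (rem_le _ _)

theorem Her.top {cs : List (ℕ → ℕ)} (h : Her cs) (v : ℕ) :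
    Her (cs ++ [fun _ => labAll cs v]) := by
  intro j w c hc
  by_cases hj : j ≤ cs.length
  · rw [List.take_append_of_le_length hj] at hc ⊢
    exact h j w c hc
  · rw [List.take_of_length_le (by simp; omega)] at hc ⊢
    rw [labAll_append]
    simp only [labAll]
    rcases List.mem_append.1 hc with hc | hc
    · have := h cs.length v c
      rw [List.take_length] at this
      exact this hc
    · rw [List.mem_singleton.1 hc]

theorem walk_length (cs : List (ℕ → ℕ)) (x y : ℕ) : (walk cs x y).length ≤ 2 * cs.length := by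
  induction cs generalizing x y with
  | nil => simp [walk]
  | cons c cs ih =>
    have := ih (c x) (c y)
    simp only [walk, List.length_append, List.length_cons]
    split_ifs <;> simp <;> omega

theorem walk_mem {P : ℕ → Prop} {cs : List (ℕ → ℕ)} (hP : ∀ c ∈ cs, ∀ v, P v → P (c v))
    {x y : ℕ} (hx : P x) (hy : P y) : ∀ a ∈ walk cs x y, P a := by
  induction cs generalizing x y with
  | nil => simp [walk]
  | cons c cs ih =>
    intro a ha
    simp only [walk, List.mem_append] at ha
    rcases ha with ha | ha | ha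
    · split_ifs at ha
      · rwa [List.mem_singleton.1 ha]
      · simp at ha
    · split_ifs at ha
      · rwa [List.mem_singleton.1 ha]
      · simp at ha
    · exact ih (fun c' hc => hP c' (by simp [hc])) (hP c (by simp) x hx) (hP c (by simp) y hy) a ha

theorem walk_sep (S : ℕ → Prop) : ∀ {cs pre : List (ℕ → ℕ)} {x y : ℕ}, Her (pre ++ cs) →
    Fix pre x → Fix pre y → labAll cs x = labAll cs y → ¬ (S x ↔ S y) →
    ∃ a ∈ walk cs x y, ¬ (S a ↔ S (firstMove (pre ++ cs) a))
  | [], _, x, y, _, _, _, e, h => absurd (by rw [show x = y from e]) h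
  | c :: cs, pre, x, y, hH, hx, hy, e, h => by
    have hxy : x ≠ y := fun e => h (by rw [e])
    by_cases h1 : S x ↔ S (c x)
    · by_cases h2 : S y ↔ S (c y)
      · obtain ⟨a, ha, hs⟩ := walk_sep S (pre := pre ++ [c]) (by simpa using hH) (hH.fix hx)
          (hH.fix hy) e (by rw [← h1, ← h2]; exact h)
        exact ⟨a, by simp [walk, ha], by simpa using hs⟩
      · have : c y ≠ y := fun e => h2 (by rw [e])
        exact ⟨y, by simp [walk, hxy, this], by rwa [hy.firstMove, firstMove, if_neg this]⟩
    · have : c x ≠ x := fun e => h1 (by rw [e])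
      exact ⟨x, by simp [walk, hxy, this], by rwa [hx.firstMove, firstMove, if_neg this]⟩

/-- The contribution of one edge to the norm of a hierarchy. -/
noncomputable def fnE (ψ : ℕ → ℝ) : List (ℕ → ℕ) → ℕ → ℕ → ℝ
  | [], _, _ => 0
  | c :: cs, x, y => (if x = y then 0 else |ψ x - ψ (c x)| + |ψ y - ψ (c y)|) +
      fnE ψ cs (c x) (c y)

theorem FN_eq (ψ : ℕ → ℝ) (cs : List (ℕ → ℕ)) (E : List Edge) : FN ψ cs E = wsum E (fnE ψ cs) := by
  induction cs generalizing E with
  | nil => exact (wsum_zero E).symm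
  | cons c cs ih =>
    rw [FN, ih, wsum_contract, lev, ← wsum_add]
    rfl

theorem walk_sum (ψ : ℕ → ℝ) : ∀ {cs pre : List (ℕ → ℕ)} {x y : ℕ}, Her (pre ++ cs) →
    Fix pre x → Fix pre y →
    ((walk cs x y).map fun a => |ψ a - ψ (firstMove (pre ++ cs) a)|).sum = fnE ψ cs x y
  | [], _, _, _, _, _, _ => rfl
  | c :: cs, pre, x, y, hH, hx, hy => by
    have ih := walk_sum ψ (pre := pre ++ [c]) (by simpa using hH) (hH.fix hx) (hH.fix hy)
    rw [List.append_assoc, List.singleton_append] at ih
    simp only [walk, List.map_append, List.sum_append, ih, fnE, ← add_assoc]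
    congr 1
    by_cases hxy : x = y
    · simp [hxy]
    · by_cases h1 : c x = x <;> by_cases h2 : c y = y <;>
        simp [hxy, h1, h2, hx.firstMove, hy.firstMove, firstMove]

end Vale.Agent.P305D
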