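import Vale.Agent.P305D.WT
import Vale.Agent.P305D.Tree
import Vale.Agent.P305E.WpLoop

/-!
# The dynamic structure: reading, candidates, steps, drawing arcs
-/

namespace Vale.Agent.P305D

open Vale.Agent.P305E Vale.Agent.P305S Finset

variable {I : Ins} {b : Bnd} {B : ℕ} {st : St} {cn : Bool}

theorem wsum_range (n : ℕ) (f : ℕ → Edge) (h : ℕ → ℕ → ℝ) :
    wsum ((List.range n).map f) h = ∑ a ∈ range n, ((f a).2.2 : ℝ) * h (f a).1 (f a).2.1 := by
  induction n with
  | zero => simp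
  | succ n ih => rw [List.range_succ, List.map_append, wsum_append, ih, sum_range_succ]; simp

theorem wsum_T (n : ℕ) (l : Lev) (h : ℕ → ℕ → ℝ) :
    wsum (l.T n) h = ∑ a ∈ range n, (l.cap a : ℝ) * h a (l.par.get a) := wsum_range _ _ _

theorem wsum_arcs (I : Ins) (st : St) (h : ℕ → ℕ → ℝ) : wsum (st.arcs I) h =
    ∑ e ∈ range I.m, (st.uu I e : ℝ) * h (I.tl.get e) (I.hd.get e) := wsum_range _ _ _

theorem one_le_uOf (I : Ins) (s : ℕ) : 1 ≤ I.uOf s := Nat.le_add_left 1 _

theorem uOf_le (I : Ins) (s : ℕ) : I.uOf s ≤ I.Um := by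
  have h1 := Nat.div_le_self I.A1 s
  have h2 := Nat.div_le_self I.A2 (s * s)
  unfold Ins.uOf Ins.Um
  omega

theorem uu_le (I : Ins) (st : St) (e : ℕ) : st.uu I e ≤ I.Um := uOf_le _ _
theorem one_le_uu (I : Ins) (st : St) (e : ℕ) : 1 ≤ st.uu I e := one_le_uOf _ _

theorem clamp_le (hf : Fit I b B) (s : ℤ) : 1 ≤ I.clamp s ∧ I.clamp s ≤ I.Smax := by
  have := hf.Smax
  unfold Ins.clamp
  omega

theorem grad_sum (hf : Fit I b B) (lam : ℕ) (u : ℕ → ℕ) :
    ∑ v ∈ range I.n, I.grad lam u v = 0 := by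
  simp only [Ins.grad, sum_add_distrib, sum_neg_distrib, ← mul_sum, hf.d_sum]
  rw [sum_comm, sum_eq_zero, mul_zero, neg_zero, add_zero]
  intro e he
  have := hf.ends e (mem_range.1 he)
  simp [sum_sub_distrib, this.1, this.2]

theorem grad_abs (lam : ℕ) {u : ℕ → ℕ} (hu : ∀ e, u e ≤ I.Um) :
    ∑ v ∈ range I.n, (I.grad lam u v).natAbs ≤
      lam * (∑ v ∈ range I.n, (I.d.get v).natAbs) + 2 * (I.m * I.Um) := by
  have h1 : ∀ v ∈ range I.n, (I.grad lam u v).natAbs ≤ lam * (I.d.get v).natAbs +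
      ∑ e ∈ range I.m, ((if I.hd.get e = v then u e else 0) +
        if I.tl.get e = v then u e else 0) := by
    intro v _
    refine (Int.natAbs_add_le _ _).trans (Nat.add_le_add (by simp [Int.natAbs_mul]) ?_)
    refine (Int.natAbs_sum_le _ _).trans (sum_le_sum fun e _ => ?_)
    split_ifs <;> omega
  refine (sum_le_sum h1).trans ?_
  rw [sum_add_distrib, ← mul_sum, sum_comm]
  refine Nat.add_le_add_left ?_ _
  have h2 : ∀ e ∈ range I.m, ∑ v ∈ range I.n, ((if I.hd.get e = v then u e else 0) +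
      if I.tl.get e = v then u e else 0) ≤ 2 * I.Um := by
    intro e _
    have := hu e
    rw [sum_add_distrib, sum_ite_eq, sum_ite_eq]
    split_ifs <;> omega
  refine (sum_le_sum h2).trans (le_of_eq ?_)
  simp only [sum_const, card_range, smul_eq_mul]
  ring

theorem GInv.sum (hf : Fit I b B) (h : GInv I b st) : ∑ v ∈ range I.n, st.g.get v = 0 := by
  rw [sum_congr rfl fun v hv => h.eq v (mem_range.1 hv), grad_sum hf]

theorem GInv.abs (h : GInv I b st) : ∑ v ∈ range I.n, (st.g.get v).natAbs ≤ b.Gm := by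
  rw [sum_congr rfl fun v hv => congrArg Int.natAbs (h.eq v (mem_range.1 hv))]
  exact (grad_abs _ (uu_le I st)).trans h.lam

theorem GInv.abs_le (h : GInv I b st) {v : ℕ} (hv : v < I.n) : (st.g.get v).natAbs ≤ b.Gm :=
  (single_le_sum (f := fun v => (st.g.get v).natAbs) (fun _ _ => Nat.zero_le _)
    (mem_range.2 hv)).trans h.abs

theorem readY_tri (hf : Fit I b B) (hc : Core I b st) {v : ℕ} (hv : v < I.n) :
    Tri ⟨B, cn⟩ (readY I st v) fun z t => z = st.y v ∧ t ≤ I.D := by
  obtain ⟨dep, hd⟩ := hc.tr.dep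
  have hB := hf.B₂
  refine Tri.loopM (fun s t => s.1 < I.n ∧ s.2 + st.y s.1 = st.y v ∧ t + dep s.1 ≤ I.D)
    (fun s => dep s.1) ?_ ⟨hv, by simp, by simpa using (hd v hv).1⟩
    (Nat.lt_succ_of_le (hd v hv).1)
  rintro ⟨u, z⟩ t ⟨h1, h2, h3⟩
  simp only [Tri_bind, Tri_inum, Tri_ite, Tri_pure, Sum.elim_inl, Sum.elim_inr] at *
  have e := hc.y_eq u h1
  have a1 := hc.y_abs v hv
  have a2 := hc.y_abs _ (hc.tr.lt u h1)
  refine ⟨by split_ifs at e <;> omega, fun h => ⟨by rw [if_pos h] at e; omega, by omega⟩,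
    fun h => ?_⟩
  have := (hd u h1).2 fun e' => h ((hc.tr.fix_iff h1).2 e')
  exact ⟨⟨hc.tr.lt u h1, by rw [if_neg h] at e; omega, by omega⟩, this⟩

theorem tr_star {n : ℕ} (hn : 0 < n) : Tr n (fun _ => 0) 0 1 :=
  ⟨hn, rfl, fun _ _ => hn, fun v => if v = 0 then 0 else 1, fun v _ =>
    ⟨by dsimp only; split_ifs <;> omega, fun h => by simp [h]⟩⟩

theorem initSt_tri (hf : Fit I b B) : Tri ⟨B, cn⟩ (initSt I) fun st t => Core I b st ∧
    st.y = (fun _ => 0) ∧ (∀ e, e < I.m → st.ss.get e = I.clamp (I.c.get e)) ∧ t ≤ I.m := by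
  have hB := hf.B₂
  refine (Tri.iterM (fun k (ss : Arr ℕ) t => (∀ e, 1 ≤ ss.get e) ∧
    (∀ e, e < k → ss.get e = I.clamp (I.c.get e)) ∧ k = t) (by simp) ?_).bind ?_
  · rintro k ss _ hk ⟨h1, h2, rfl⟩
    have := clamp_le hf (I.c.get k)
    simp only [Tri_bind, Tri_num, Tri_pure, Arr.get_set]
    refine ⟨by omega, fun e => ?_, fun e he => ?_, trivial⟩
    · split_ifs
      · exact this.1
      · exact h1 e
    · split_ifs with h
      · rw [h]
      · exact h2 e (by omega)
  · rintro ss _ ⟨h1, h2, rfl⟩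
    exact ⟨⟨(tr_star hf.n_pos).mono (by rw [hf.D]; omega), fun v _ => by simp, fun v _ => by simp,
      h1⟩, rfl, h2, le_rfl⟩

theorem addAt_tri {g : Arr ℤ} {v : ℕ} {x : ℤ} {Q : Arr ℤ → ℕ → Prop} {c : Cx} :
    Tri c (addAt g v x) Q ↔ (g.get v + x).natAbs ≤ c.B ∧ Q (g.set v (g.get v + x)) 0 := by
  simp only [addAt, Tri_bind, Tri_inum, Tri_pure, add_zero]

theorem setLam_tri (hf : Fit I b B) (hc : Core I b st) {lam : ℕ}
    (hl : lam * (∑ v ∈ range I.n, (I.d.get v).natAbs) + 2 * (I.m * I.Um) ≤ b.Gm) :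
    Tri ⟨B, cn⟩ (setLam I st lam) fun st' t => Core I b st' ∧ GInv I b st' ∧ st'.lam = lam ∧
      st'.y = st.y ∧ st'.ss = st.ss ∧ t ≤ I.n + I.m := by
  have hB := hf.B₂
  have hG : b.Gm ≤ 8 * (I.n + 1) * b.Gm := Nat.le_mul_of_pos_left _ (by omega)
  have hd : ∀ v, v < I.n → (-((lam : ℤ) * I.d.get v)).natAbs + 2 * (I.m * I.Um) ≤ b.Gm := by
    intro v hv
    have := single_le_sum (f := fun v => (I.d.get v).natAbs) (fun _ _ => Nat.zero_le _)
      (mem_range.2 hv)
    have := Nat.mul_le_mul_left lam this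
    simp only [Int.natAbs_neg, Int.natAbs_mul, Int.natAbs_natCast]
    omega
  refine (Tri.iterM (fun k (g : Arr ℤ) t =>
    (∀ v, g.get v = if v < k then -((lam : ℤ) * I.d.get v) else 0) ∧ k = t) (by simp) ?_).bind ?_
  · rintro k g _ hk ⟨h1, rfl⟩
    have := hd k hk
    simp only [addAt_tri, h1 k, lt_irrefl, if_false, zero_add, Arr.get_set, and_true]
    refine ⟨by omega, fun v => ?_⟩
    rw [h1 v]
    split_ifs <;> first | rfl | omega | simp_all
  rintro g₀ _ ⟨h0, rfl⟩
  refine (Tri.iterM (fun k (g : Arr ℤ) t => (∀ v, v < I.n → g.get v = -((lam : ℤ) * I.d.get v) +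
    ∑ e ∈ range k, ((if I.hd.get e = v then (st.uu I e : ℤ) else 0) -
      if I.tl.get e = v then (st.uu I e : ℤ) else 0)) ∧
    (∀ v, v < I.n → (g.get v).natAbs ≤ (-((lam : ℤ) * I.d.get v)).natAbs + 2 * (k * I.Um)) ∧
    k = t) ⟨fun v hv => by simp [h0, hv], fun v hv => by simp [h0, hv], rfl⟩ ?_).bind ?_
  · rintro k g _ hk ⟨h1, h2, rfl⟩
    have a1 := hf.ends k hk
    have a2 := uu_le I st k
    have a3 : (k + 1) * I.Um ≤ I.m * I.Um := Nat.mul_le_mul_right _ hk
    have a4 := h2 _ a1.1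
    have a5 := h2 _ a1.2
    have a6 := hd _ a1.1
    have a7 := hd _ a1.2
    rw [add_mul, one_mul] at a3
    simp only [Tri_bind, Tri_inum, addAt_tri, Arr.get_set, add_zero, and_true, add_mul, one_mul]
    refine ⟨by omega, by omega, by split_ifs with h <;> [rw [h] at a4 a6; skip] <;> omega,
      fun v hv => ?_, fun v hv => ?_⟩
    · rw [sum_range_succ, ← add_assoc, ← h1 v hv]
      by_cases k1 : I.tl.get k = v <;> by_cases k2 : I.hd.get k = v
      · simp [k1, k2]
      · simp [k1, k2, Ne.symm k2, sub_eq_add_neg]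
      · simp [k1, k2, Ne.symm k1]
      · simp [k1, k2, Ne.symm k1, Ne.symm k2]
    · have := h2 v hv
      split_ifs with k1 k2 k3
      · rw [k1, k2] at this ⊢; omega
      · rw [k1] at this ⊢; omega
      · rw [k3] at this ⊢; omega
      · omega
  · rintro g _ ⟨h1, -, rfl⟩
    exact ⟨⟨hc.tr, hc.y_eq, hc.y_abs, hc.ss⟩, ⟨h1, hl⟩, rfl, rfl, rfl, le_rfl⟩

open Classical in
theorem Inv.G_top (h : Inv I b st) (hU : st.U I.L = []) {a : ℕ} (ha : a < I.n) :
    (st.top I).G.get a = ∑ v ∈ range I.n,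
      if Anc (st.top I).par.get a v then st.g.get v else 0 := by
  have hl := h.lev I.L le_rfl
  rw [St.top, hl.G_eq a ha]
  refine sum_congr rfl fun v hv => ?_
  rw [hl.gs_eq v (mem_range.1 hv) (by rw [show (st.lv.get I.L).U = [] from hU]; simp)]

theorem cand_none (hf : Fit I b B) (h : Inv I b st) (hU : st.U I.L = []) (hc : cand I st = none)
    (φ : ℕ → ℝ) : |∑ v ∈ range I.n, (st.g.get v : ℝ) * φ v| * I.K2 ≤ nrm (st.T I I.L) φ := by
  classical
  have hl := h.lev I.L le_rfl
  have h0 : (st.top I).good.min = none := by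
    rcases hm : (st.top I).good.min with _ | p
    · rfl
    · simp [cand, hm] at hc
  rw [h.core.tr.sum_mul (fun v => (st.g.get v : ℝ)) φ (by exact_mod_cast h.g.sum hf), nrm, St.T,
    wsum_T]
  refine (mul_le_mul_of_nonneg_right (abs_sum_le_sum_abs _ _) (Nat.cast_nonneg _)).trans ?_
  rw [Finset.sum_mul]
  refine sum_le_sum fun a ha => ?_
  have h1 := hl.flag a
  rw [show (st.lv.get I.L).good.get a = none from MinArr.min_eq_none h0 a] at h1
  have h2 : I.K2 * ((st.top I).G.get a).natAbs ≤ (st.top I).cap a := by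
    by_contra hn
    rw [if_pos ⟨mem_range.1 ha, not_le.1 hn⟩] at h1
    cases h1
  rw [h.G_top hU (mem_range.1 ha)] at h2
  have h3 : (I.K2 : ℝ) * |∑ v ∈ range I.n, if Anc (st.top I).par.get a v then (st.g.get v : ℝ)
      else 0| ≤ (st.top I).cap a := by
    have : ((I.K2 * (∑ v ∈ range I.n, if Anc (st.top I).par.get a v then st.g.get v
      else 0).natAbs : ℕ) : ℝ) ≤ (st.top I).cap a := by exact_mod_cast h2
    rw [Nat.cast_mul, Nat.cast_natAbs] at this
    push_cast at this
    exact this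
  rw [abs_mul, mul_right_comm, mul_comm _ (I.K2 : ℝ)]
  exact mul_le_mul_of_nonneg_right h3 (abs_nonneg _)

theorem sum_mass_le (m : ℕ) : ∀ t : WT, ∑ e ∈ range m, mass e t ≤ wt t
  | .leaf p => by
    simp only [mass, wt, sum_ite_eq]
    split_ifs <;> omega
  | .node _ l r => by
    simp only [mass, wt, sum_add_distrib]
    exact Nat.add_le_add (sum_mass_le m l) (sum_mass_le m r)

theorem Inv.uu_le_mass (h : Inv I b st) {a e : ℕ} (he : e < I.m) (hU : e ∉ st.U I.L)
    (hs : ¬ (Anc (st.top I).par.get a (I.tl.get e) ↔ Anc (st.top I).par.get a (I.hd.get e))) :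
    st.uu I e ≤ mass e ((st.top I).it.get a).2 := by
  obtain ⟨a', -, h2, h3⟩ := (h.lev I.L le_rfl).mass e he hU _ hs
  rwa [sep_sub h2] at h3

theorem Inv.dom (h : Inv I b st) {i : ℕ} (hi : i ≤ I.L) (S : ℕ → Prop) :
    cut (st.T I i) S ≤ cut (st.T I I.L) S := by
  induction hi using Nat.decreasingInduction with
  | self => exact le_rfl
  | of_succ k hk ih => exact ((h.link k hk).dom S).trans ih

open Classical in
theorem cand_some (h : Inv I b st) (hU : st.U I.L = []) {a : ℕ} (hc : cand I st = some a) :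
    a < I.n ∧ (st.top I).cap a < I.K2 * (∑ v ∈ range I.n,
      if Anc (st.top I).par.get a v then st.g.get v else 0).natAbs ∧
    cut (st.arcs I) (Anc (st.top I).par.get a) ≤ (st.top I).cap a ∧
    ∀ i, i ≤ I.L → cut (st.T I i) (Anc (st.top I).par.get a) ≤ (st.top I).cap a := by
  have hl := h.lev I.L le_rfl
  obtain ⟨p, hm, rfl⟩ : ∃ p, (st.top I).good.min = some p ∧ p.2 = a := by
    rcases hm : (st.top I).good.min with _ | p
    · simp [cand, hm] at hc
    · exact ⟨p, rfl, by simpa [cand, hm] using hc⟩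
  obtain ⟨⟨i, hi⟩, -⟩ := MinArr.min_eq_some hm
  have h1 := hl.flag i
  rw [show (st.lv.get I.L).good.get i = some p from hi] at h1
  split_ifs at h1 with h2
  obtain rfl : p = (0, i) := Option.some.inj h1
  refine ⟨h2.1, h.G_top hU h2.1 ▸ h2.2, ?_, fun j hj => (h.dom hj _).trans ?_⟩
  · rw [cut, wsum_arcs]
    have h3 : ((∑ e ∈ range I.m, mass e ((st.top I).it.get i).2 : ℕ) : ℝ) ≤ (st.top I).cap i := by
      exact_mod_cast (sum_mass_le _ _).trans (hl.good i).1.ge
    refine le_trans ?_ h3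
    push_cast
    refine sum_le_sum fun e he => ?_
    unfold sep
    split_ifs with hs
    · simp
    · rw [mul_one]
      exact_mod_cast h.uu_le_mass (mem_range.1 he) (by simp [hU]) hs
  · rw [cut, St.T, wsum_T, sum_eq_single i]
    · exact mul_le_of_le_one_right (Nat.cast_nonneg _) (sep_le_one _ _ _)
    · intro a' _ hne
      unfold sep
      rw [if_pos (by by_contra hn; exact hne (sep_sub hn)), mul_zero]
    · intro hn
      exact absurd (mem_range.2 h2.1) hn

theorem LevInv.congr {st' : St} {k : ℕ} {l : Lev} (h : LevInv I b st k l) (h1 : st'.ss = st.ss)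
    (h2 : st'.g = st.g) : LevInv I b st' k l :=
  ⟨h.tr, h.good, h.tot, h.U_lt, by simpa only [St.uu, h1] using h.mass, h.G_eq, h.gs_sum,
    h.gs_abs, by simpa only [h2] using h.gs_eq, h.flag⟩

open Classical in
theorem move_tri (hf : Fit I b B) (h : Inv I b st) {a : ℕ} (ha : a < I.n) {amt : ℤ}
    (hy : ∀ v, v < I.n →
      (st.y v + if Anc (st.top I).par.get a v then amt else 0).natAbs ≤ b.Ym) :
    Tri ⟨B, cn⟩ (move I st a amt) fun st' t => Inv I b st' ∧
      st'.y = (fun v => st.y v + if Anc (st.top I).par.get a v then amt else 0) ∧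
      st'.ss = st.ss ∧ st'.lv = st.lv ∧ st'.lam = st.lam ∧ st'.g = st.g ∧ t = 0 := by
  have hB := hf.B₂
  have ht := h.core.tr
  simp only [move, Tri_bind, Tri_inum, Tri_pure, and_self, and_true]
  refine ⟨?_, ⟨ht, fun v hv => ?_, hy, h.core.ss⟩, ⟨h.g.eq, h.g.lam⟩,
    fun i hi => (h.lev i hi).congr rfl rfl, h.link⟩
  · have h1 := hy a ha
    have h2 := h.core.y_abs _ (ht.lt a ha)
    have h3 := h.core.y_eq a ha
    rw [if_pos (Anc.refl _ _)] at h1
    split_ifs at h3 <;> omega
  · have h3 := h.core.y_eq v hv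
    show st.y v + (if Anc (st.top I).par.get a v then amt else 0) = (st.sg.set a _).get v + if (st.top I).par.get v = v then 0 else
      st.y ((st.top I).par.get v) +
        if Anc (st.top I).par.get a ((st.top I).par.get v) then amt else 0
    rw [Arr.get_set]
    by_cases e : v = a
    · subst e
      rw [if_pos (Anc.refl _ _), if_pos rfl]
      by_cases e' : (st.top I).par.get v = v
      · rw [if_pos e'] at h3 ⊢; omega
      · rw [if_neg e'] at h3 ⊢
        rw [if_neg (ht.not_anc_par hv fun e'' => e' ((ht.fix_iff hv).2 e''))]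
        omega
    · rw [if_neg e]
      by_cases e' : (st.top I).par.get v = v
      · rw [if_pos e'] at h3 ⊢
        rw [if_neg fun hA => e (hA.closed (P := fun w => w = v) (fun w hw => hw ▸ e') rfl).symm]
        omega
      · rw [if_neg e'] at h3 ⊢
        have : Anc (st.top I).par.get a v ↔ Anc (st.top I).par.get a ((st.top I).par.get v) := by
          rw [anc_iff]; simp [e]
        simp only [this]
        omega

theorem capB_mono (I : Ins) (b : Bnd) {k k' : ℕ} (h : k ≤ k') : capB I b k ≤ capB I b k' :=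
  Nat.mul_le_mul_right _ (Nat.pow_le_pow_right (by omega) h)

theorem LevInv.cap_le {k : ℕ} {l : Lev} (h : LevInv I b st k l) {a : ℕ} (ha : a < I.n) :
    l.cap a ≤ capB I b k :=
  (single_le_sum (f := l.cap) (fun _ _ => Nat.zero_le _) (mem_range.2 ha)).trans
    ((Nat.le_add_right _ _).trans h.tot)

theorem draw_tri (hf : Fit I b B) (h : Inv I b st) {a : ℕ} (ha : a < I.n) :
    Tri ⟨B, true⟩ (draw I st a) fun _ t => t ≤ 2 * Nat.size B + I.dw := by
  have hl := h.lev I.L le_rfl
  have h1 := hl.cap_le ha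
  have h2 := hf.B₁
  have h3 := hf.B₂
  have h4 : 2 ^ Nat.size ((st.top I).cap a) ≤ B := by
    show 2 ^ Nat.size ((st.lv.get I.L).cap a) ≤ B
    rcases Nat.eq_zero_or_pos ((st.lv.get I.L).cap a) with h0 | h0
    · rw [h0]; simp; omega
    · have h3 : 0 < Nat.size ((st.lv.get I.L).cap a) := Nat.size_pos.2 h0
      have h4 := Nat.lt_size.1 (show Nat.size ((st.lv.get I.L).cap a) - 1 <
        Nat.size ((st.lv.get I.L).cap a) by omega)
      have h5 : 2 ^ Nat.size ((st.lv.get I.L).cap a) =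
          2 * 2 ^ (Nat.size ((st.lv.get I.L).cap a) - 1) := by rw [← pow_succ']; congr 1; omega
      omega
  refine (Tri.rbits h4).bind fun x t ht => ?_
  refine (descM_tri (d := I.dw) (hf.dw ▸ (hl.good a).2) x).mono fun e s hs => ?_
  have : Nat.size ((st.top I).cap a) ≤ Nat.size B :=
    Nat.size_le_size (show (st.lv.get I.L).cap a ≤ B by omega)
  omega

theorem drawN_tri (hf : Fit I b B) (h : Inv I b st) {a : ℕ} (ha : a < I.n) (k : ℕ) :
    Tri ⟨B, true⟩ (drawN I st a k) fun l t => l.length = k ∧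
      t ≤ k * (2 * Nat.size B + I.dw + 1) := by
  refine Tri.iterM (fun j (l : List ℕ) t => l.length = j ∧ t ≤ j * (2 * Nat.size B + I.dw + 1))
    (by simp) ?_
  rintro j l t - ⟨rfl, ht⟩
  refine (draw_tri hf h ha).bind fun e t' ht' => ⟨by simp, ?_⟩
  rw [add_mul]
  omega

theorem drawN_wp (hf : Fit I b B) (h : Inv I b st) {a e : ℕ} (ha : a < I.n) (he : e < I.m)
    (hU : e ∉ st.U I.L)
    (hs : ¬ (Anc (st.top I).par.get a (I.tl.get e) ↔ Anc (st.top I).par.get a (I.hd.get e)))
    (k : ℕ) (p : ℝ) : wp B (drawN I st a k) (fun l _ => if e ∈ l then 0 else 1) p ≤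
      Real.exp (-(k * st.uu I e) / (2 * (st.top I).cap a)) := by
  have hl := h.lev I.L le_rfl
  set q := Real.exp (-(st.uu I e : ℝ) / (2 * (st.top I).cap a)) with hq
  have hq0 : 0 ≤ q := (Real.exp_pos _).le
  have h1 : wp B (draw I st a) (fun e' _ => if e' = e then 0 else 1) 0 ≤ q := by
    have h2 := hl.cap_le ha
    have h3 := hf.B₁
    have h4 := hf.B₂
    refine (drawItem_wp (hf.dw ▸ hl.good a) (show 2 * (st.lv.get I.L).cap a ≤ B by omega)
      (by omega) e 0).trans (le_trans ?_ (Real.add_one_le_exp _))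
    have h5 : (st.uu I e : ℝ) ≤ mass e ((st.top I).it.get a).2 := by
      exact_mod_cast h.uu_le_mass he hU hs
    have h6 := div_le_div_of_nonneg_right h5 (show (0 : ℝ) ≤ 2 * (st.top I).cap a by positivity)
    rw [neg_div]
    exact (sub_le_sub_left h6 1).trans (le_of_eq (by ring))
  rw [wp_fail_irrel (drawN_tri hf h ha k) _ p 0]
  refine (wp_iterM_le (fun _ _ _ => True) (fun j l _ => if e ∈ l then 0 else q ^ (k - j)) trivial
    (fun _ _ _ _ _ => Par_true _) ?_ (fun l _ _ => by simp)).trans ?_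
  · intro j l t hj _
    simp only [wp_bind, wp_pure, List.mem_cons]
    by_cases hm : e ∈ l
    · simp [hm]
    · have e1 : (fun (x : ℕ) (_ : ℕ) => if e = x ∨ e ∈ l then (0 : ℝ) else q ^ (k - (j + 1))) =
          fun x _ => q ^ (k - (j + 1)) * if x = e then 0 else 1 := by
        funext x _
        by_cases hx : x = e
        · simp [hx]
        · simp [hx, hm, Ne.symm hx]
      rw [e1, if_neg hm, show k - j = k - (j + 1) + 1 by omega, pow_succ]
      have := wp_mul_left (B := B) (draw I st a) (q ^ (k - (j + 1)))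
        (fun x _ => if x = e then 0 else 1) 0
      rw [mul_zero] at this
      rw [this]
      exact mul_le_mul_of_nonneg_left h1 (pow_nonneg hq0 _)
  · simp only [List.not_mem_nil, if_false, Nat.sub_zero, hq, ← Real.exp_nat_mul]
    exact le_of_eq (by congr 1; ring)

end Vale.Agent.P305D
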