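import Vale.Agent.P305D.Defs

/-!
# The dynamic structure: weighted trees
-/

namespace Vale.Agent.P305D

open Vale.Agent.P305E Vale.Agent.P305S Finset

variable {c : Cx}

theorem WGood.mono {d d' : ℕ} (h : d ≤ d') : ∀ {t : WT}, WGood d t → WGood d' t := by
  induction d generalizing d' with
  | zero => intro t ht; cases t with
    | leaf p => cases d' <;> trivial
    | node w l r => exact ht.elim
  | succ d ih =>
    intro t ht
    cases t with
    | leaf p => cases d' <;> trivial
    | node w l r =>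
      obtain ⟨d'', rfl⟩ : ∃ d'', d' = d'' + 1 := ⟨d' - 1, by omega⟩
      exact ⟨ht.1, ih (by omega) ht.2.1, ih (by omega) ht.2.2⟩

theorem WGood_leaf (d : ℕ) (p : ℕ × ℕ) : WGood d (.leaf p) := by cases d <;> trivial

theorem IGood.mono {d d' : ℕ} (h : d ≤ d') {x : Item} (hx : IGood d x) : IGood d' x :=
  ⟨hx.1, hx.2.mono h⟩

theorem IGood_zero (d : ℕ) : IGood d Item.zero := ⟨rfl, WGood_leaf _ _⟩

theorem mass_le_wt (e : ℕ) : ∀ t : WT, mass e t ≤ wt t
  | .leaf p => by simp only [mass, wt]; split_ifs <;> omega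
  | .node _ l r => Nat.add_le_add (mass_le_wt e l) (mass_le_wt e r)

/-- The total weight of a list of items. -/
def wsumI (l : List Item) : ℕ := (l.map fun x => x.1).sum

/-- The total mass of an arc in a list of items. -/
def msumI (e : ℕ) (l : List Item) : ℕ := (l.map fun x => mass e x.2).sum

@[simp] theorem wsumI_nil : wsumI [] = 0 := rfl
@[simp] theorem wsumI_cons (x : Item) (l : List Item) : wsumI (x :: l) = x.1 + wsumI l := by
  simp [wsumI]
@[simp] theorem msumI_nil (e : ℕ) : msumI e [] = 0 := rfl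
@[simp] theorem msumI_cons (e : ℕ) (x : Item) (l : List Item) :
    msumI e (x :: l) = mass e x.2 + msumI e l := by simp [msumI]

theorem le_msumI {e : ℕ} {x : Item} {l : List Item} (h : x ∈ l) : mass e x.2 ≤ msumI e l :=
  List.single_le_sum (by simp) _ (List.mem_map.2 ⟨x, h, rfl⟩)

theorem pairUp_tri {d : ℕ} {l : List Item} (hl : ∀ x ∈ l, IGood d x) (hB : wsumI l ≤ c.B) :
    Tri c (pairUp l) fun l' t => (∀ x ∈ l', IGood (d + 1) x) ∧ wsumI l' = wsumI l ∧
      (∀ e, msumI e l' = msumI e l) ∧ 2 * l'.length ≤ l.length + 1 ∧ 2 * t ≤ l.length := by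
  refine Tri.loopM (fun s t => (∀ x ∈ s.1, IGood d x) ∧ (∀ x ∈ s.2, IGood (d + 1) x) ∧
    wsumI s.1 + wsumI s.2 = wsumI l ∧ (∀ e, msumI e s.1 + msumI e s.2 = msumI e l) ∧
    s.1.length + 2 * s.2.length = l.length ∧ t = s.2.length) (fun s => s.1.length) ?_
    (by simpa using hl) (by simp)
  rintro ⟨r, acc⟩ t ⟨h1, h2, h3, h4, h5, rfl⟩
  rcases r with _ | ⟨x, _ | ⟨y, r⟩⟩
  · simp only [caseL_nil, Tri_pure, Sum.elim_inr] at *
    exact ⟨h2, by simpa using h3, by simpa using h4, by simp at h5; omega, by simp at h5; omega⟩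
  · simp only [caseL_nil, caseL_cons, Tri_pure, Sum.elim_inr] at *
    refine ⟨?_, by simpa using h3, by simpa using h4, by simp at h5 ⊢; omega,
      by simp at h5; omega⟩
    intro z hz
    rcases List.mem_cons.1 hz with rfl | hz
    · exact (h1 _ (by simp)).mono (by omega)
    · exact h2 z hz
  · simp only [caseL_cons, Tri_bind, Tri_num, Tri_pure, Sum.elim_inl, wsumI_cons, msumI_cons,
      List.length_cons] at *
    have hx := h1 x (by simp)
    have hy := h1 y (by simp)
    refine ⟨by omega, ⟨fun z hz => h1 z (by simp [hz]), ?_, by omega, fun e => ?_, by omega,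
      by simp⟩, by omega⟩
    · intro z hz
      rcases List.mem_cons.1 hz with rfl | hz
      · exact ⟨by simp only [wt]; rw [hx.1, hy.1], hx.1, hx.2, hy.2⟩
      · exact h2 z hz
    · have := h4 e
      simp only [mass]
      omega

theorem build_tri {d k : ℕ} {l : List Item} (hl : ∀ x ∈ l, IGood d x) (hB : wsumI l ≤ c.B)
    (hk : l.length ≤ 2 ^ k) :
    Tri c (build l) fun x t => IGood (d + k) x ∧ x.1 = wsumI l ∧
      (∀ e, mass e x.2 = msumI e l) ∧ t ≤ 4 * l.length := by
  refine Tri.loopM (fun s t => ∃ j, j ≤ k ∧ s.length ≤ 2 ^ (k - j) ∧ (∀ x ∈ s, IGood (d + j) x) ∧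
    wsumI s = wsumI l ∧ (∀ e, msumI e s = msumI e l) ∧ t + 4 * s.length ≤ 4 * l.length)
    (fun s => s.length) ?_ ⟨0, by simp, by simpa using hk, hl, rfl, fun _ => rfl, by simp⟩
    (by simp)
  rintro s t ⟨j, hj, h1, h2, h3, h4, h5⟩
  rcases s with _ | ⟨x, _ | ⟨y, r⟩⟩
  · simp only [caseL_nil, Tri_pure, Sum.elim_inr]
    exact ⟨IGood_zero _, h3, fun e => by rw [← h4 e]; simp [Item.zero, mass], by omega⟩
  · simp only [caseL_nil, caseL_cons, Tri_pure, Sum.elim_inr]
    exact ⟨(h2 x (by simp)).mono (by omega), by simpa using h3, fun e => by simpa using h4 e,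
      by omega⟩
  · simp only [caseL_cons, Tri_bind, Tri_pure, Sum.elim_inl]
    refine (pairUp_tri h2 (h3 ▸ hB)).mono fun s' t' ⟨g1, g2, g3, g4, g5⟩ => ?_
    simp only [List.length_cons] at h1 h5 g4 g5 ⊢
    have hjk : j < k := by
      by_contra hn
      have : k - j = 0 := by omega
      rw [this] at h1
      omega
    have e : 2 ^ (k - j) = 2 * 2 ^ (k - (j + 1)) := by
      rw [← pow_succ']; congr 1; omega
    exact ⟨⟨j + 1, hjk, by omega, g1, g2.trans h3, fun e => (g3 e).trans (h4 e), by omega⟩,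
      by omega⟩

theorem descM_tri {d : ℕ} {t : WT} (ht : WGood d t) (x : ℕ) :
    Tri c (descM d t x) fun e s => e = desc t x ∧ s ≤ d := by
  classical
  have hdep : ∀ (t : WT) (d : ℕ), WGood d t → ∃ k, WGood k t := fun t d h => ⟨d, h⟩
  let μ : WT → ℕ := fun t => if h : ∃ k, WGood k t then Nat.find h else 0
  have hμ : ∀ t k, WGood k t → μ t ≤ k := fun t k h => by
    simp only [μ, dif_pos (⟨k, h⟩ : ∃ k, WGood k t)]
    exact Nat.find_min' _ h
  have hμ' : ∀ t k, WGood k t → WGood (μ t) t := fun t k h => by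
    simp only [μ, dif_pos (⟨k, h⟩ : ∃ k, WGood k t)]
    exact Nat.find_spec (⟨k, h⟩ : ∃ k, WGood k t)
  refine Tri.loopM (fun s k => desc s.1 s.2 = desc t x ∧ WGood (μ s.1) s.1 ∧ k + μ s.1 ≤ d)
    (fun s => μ s.1) ?_ ⟨rfl, hμ' _ _ ht, by simpa using hμ _ _ ht⟩
    (Nat.lt_succ_of_le (hμ _ _ ht))
  rintro ⟨u, z⟩ k ⟨h1, h2, h3⟩
  cases u with
  | leaf p =>
    simp only [caseT_leaf, Tri_pure, Sum.elim_inr]
    exact ⟨h1, by omega⟩
  | node w l r =>
    simp only [caseT_node, Tri_ite, Tri_pure, Sum.elim_inl] at *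
    obtain ⟨j, hj⟩ : ∃ j, μ (.node w l r) = j + 1 := by
      rcases hm : μ (.node w l r) with _ | j
      · rw [hm] at h2; exact h2.elim
      · exact ⟨j, rfl⟩
    rw [hj] at h2 h3 ⊢
    have a1 := hμ _ _ h2.2.1
    have a2 := hμ _ _ h2.2.2
    simp only [desc] at h1
    exact ⟨fun h => ⟨⟨by rwa [if_pos h] at h1, hμ' _ _ h2.2.1, by omega⟩, by omega⟩,
      fun h => ⟨⟨by rwa [if_neg h] at h1, hμ' _ _ h2.2.2, by omega⟩, by omega⟩⟩

theorem card_desc (e : ℕ) : ∀ {d : ℕ} {t : WT}, WGood d t →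
    ∑ x ∈ range (wt t), (if desc t x = e then 1 else 0) = mass e t := by
  intro d t
  induction t generalizing d with
  | leaf p => intro _; by_cases h : p.1 = e <;> simp [wt, desc, mass, h]
  | node w l r ihl ihr =>
    intro h
    cases d with
    | zero => exact h.elim
    | succ d =>
      obtain ⟨rfl, hl, hr⟩ := h
      simp only [wt, mass]
      rw [sum_range_add, ← ihl hl, ← ihr hr]
      congr 1
      · exact sum_congr rfl fun x hx => by simp only [desc, if_pos (mem_range.1 hx)]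
      · exact sum_congr rfl fun x _ => by
          simp only [desc, if_neg (show ¬ wt l + x < wt l by omega), Nat.add_sub_cancel_left]

/-- A random position and the descent: the arc `e` comes with probability `≥ mass / (2 weight)`. -/
theorem drawItem_wp {B d : ℕ} {x : Item} (hx : IGood d x) (hB : 2 * x.1 ≤ B) (hB1 : 1 ≤ B) (e : ℕ)
    (p : ℝ) : wp B (rbits (Nat.size x.1) >>= fun z => descM d x.2 z)
      (fun e' _ => if e' = e then 0 else 1) p ≤ 1 - mass e x.2 / (2 * x.1) := by
  have h2 : 2 ^ Nat.size x.1 ≤ B ∧ (0 < x.1 → 2 ^ Nat.size x.1 ≤ 2 * x.1) := by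
    rcases Nat.eq_zero_or_pos x.1 with h0 | h0
    · simp [h0, hB1]
    · have h3 : 0 < Nat.size x.1 := Nat.size_pos.2 h0
      have h4 : 2 ^ (Nat.size x.1 - 1) ≤ x.1 := Nat.lt_size.1 (by omega)
      have h5 : 2 ^ Nat.size x.1 = 2 * 2 ^ (Nat.size x.1 - 1) := by
        rw [← pow_succ']; congr 1; omega
      exact ⟨by omega, fun _ => by omega⟩
  rw [wp_bind, wp_rbits h2.1]
  have h3 : ∀ z ∈ range (2 ^ Nat.size x.1), wp B (descM d x.2 z)
      (fun e' _ => if e' = e then (0 : ℝ) else 1) p = 1 - if desc x.2 z = e then 1 else 0 := by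
    intro z _
    have h := descM_tri (c := ⟨B, true⟩) hx.2 z
    refine le_antisymm (wp_le_const_of_Tri h ?_ _) (const_le_wp_of_Tri h ?_ _) <;>
    · rintro _ _ ⟨rfl, -⟩
      split_ifs <;> norm_num
  rw [sum_congr rfl h3, sum_sub_distrib]
  have h4 : (mass e x.2 : ℝ) ≤ ∑ z ∈ range (2 ^ Nat.size x.1),
      (if desc x.2 z = e then (1 : ℝ) else 0) := by
    rw [← card_desc e hx.2, ← hx.1]
    push_cast
    refine sum_le_sum_of_subset_of_nonneg (range_subset_range.2 (Nat.lt_size_self _).le) ?_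
    intro i _ _
    split_ifs <;> norm_num
  have h5 : (0 : ℝ) < 2 ^ Nat.size x.1 := by positivity
  simp only [sum_const, card_range, nsmul_eq_mul, mul_one, Nat.cast_pow, Nat.cast_ofNat]
  rw [sub_div, div_self h5.ne']
  refine sub_le_sub_left ?_ _
  rcases Nat.eq_zero_or_pos x.1 with h0 | h0
  · rw [h0]
    simp only [Nat.cast_zero, mul_zero, div_zero]
    exact div_nonneg (sum_nonneg fun i _ => by split_ifs <;> norm_num) (by positivity)
  · have h6 : (2 : ℝ) ^ Nat.size x.1 ≤ 2 * x.1 := by exact_mod_cast h2.2 h0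
    exact (div_le_div_of_nonneg_left (Nat.cast_nonneg _) h5 h6).trans
      (div_le_div_of_nonneg_right h4 h5.le)

end Vale.Agent.P305D
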